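import Vale.Agent.P166.Rsb.Sync.Main

/-!
# P166: averages over small perturbations, and regularity of the quantities inside the last block

`pertAvg` is the integral against the probability law `pertLaw`; the overlaps, the mass and the
error inside the last block are bounded measurable functions of the perturbation.
-/

open MeasureTheory ProbabilityTheory Real Finset
open Vale.Agent.P157 (cubeLaw)
open Vale.Agent.P157.Rsb (stdG lift boxAvg_eq boxP boxSet boxP_facts IsPath path_mem pairCnd cnd_nonneg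
  measurable_root_pair)

namespace Vale.Agent.P166.Rsb.Syn

variable {k : ℕ} {η δ δ' : ℝ}

/-- The law of a small perturbation. -/
noncomputable def pertLaw (k : ℕ) (η δ δ' : ℝ) : Measure (ℝ × (Fin k → ℝ)) :=
  ((volume (Set.Icc (0 : ℝ) δ'))⁻¹ • volume.restrict (Set.Icc (0 : ℝ) δ')).prod
    (boxP (fun _ => η) δ)

/-- Integrability in the perturbation. -/
def PertInt (k : ℕ) (η δ δ' : ℝ) (Ψ : (ℕ → ℝ) → ℝ → ℝ) : Prop :=
  Integrable (fun p : ℝ × (Fin k → ℝ) => Ψ (lift p.2) p.1) (pertLaw k η δ δ')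

theorem pertLaw_facts (k : ℕ) (η : ℝ) (hδ : 0 < δ) (hδ' : 0 < δ') :
    IsProbabilityMeasure (pertLaw k η δ δ') ∧ ∀ᵐ p ∂pertLaw k η δ δ',
      (0 ≤ p.1 ∧ p.1 ≤ δ') ∧ ∀ l, η ≤ p.2 l ∧ p.2 l ≤ η + δ := by
  obtain ⟨hP, hbox⟩ := boxP_facts (fun _ : Fin k => η) hδ
  have hv0 : volume (Set.Icc (0 : ℝ) δ') ≠ 0 := by simp [Real.volume_Icc, hδ']
  have hv1 : volume (Set.Icc (0 : ℝ) δ') ≠ ⊤ := measure_Icc_lt_top.ne
  have hp1 : IsProbabilityMeasure
      ((volume (Set.Icc (0 : ℝ) δ'))⁻¹ • volume.restrict (Set.Icc (0 : ℝ) δ')) := ⟨by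
    rw [Measure.smul_apply, Measure.restrict_apply_univ, smul_eq_mul, ENNReal.inv_mul_cancel hv0 hv1]⟩
  refine ⟨by unfold pertLaw; infer_instance, ?_⟩
  unfold pertLaw
  filter_upwards [Measure.quasiMeasurePreserving_fst.ae
      (Measure.ae_smul_measure (ae_restrict_mem measurableSet_Icc) _),
    Measure.quasiMeasurePreserving_snd.ae hbox] with p h1 h2 using ⟨h1, fun l => h2 l trivial⟩

theorem pertAvg_eq {Ψ : (ℕ → ℝ) → ℝ → ℝ} (hδ : 0 < δ) (hδ' : 0 < δ') (hi : PertInt k η δ δ' Ψ) :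
    pertAvg k η δ δ' Ψ = ∫ p, Ψ (lift p.2) p.1 ∂pertLaw k η δ δ' := by
  obtain ⟨hP, -⟩ := boxP_facts (fun _ : Fin k => η) hδ
  have hv0 : volume (Set.Icc (0 : ℝ) δ') ≠ 0 := by simp [Real.volume_Icc, hδ']
  have hsf : SFinite ((volume (Set.Icc (0 : ℝ) δ'))⁻¹ • volume.restrict (Set.Icc (0 : ℝ) δ')) := by
    infer_instance
  rw [pertAvg, average_eq', Measure.restrict_apply_univ]
  simp only [boxAvg_eq]
  exact (integral_prod _ hi).symm

theorem PertInt.of_bdd {Ψ : (ℕ → ℝ) → ℝ → ℝ} (hδ : 0 < δ) (hδ' : 0 < δ')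
    (hm : Measurable fun p : ℝ × (Fin k → ℝ) => Ψ (lift p.2) p.1) {C : ℝ}
    (hC : ∀ (y : Fin k → ℝ) (h : ℝ), 0 ≤ h → h ≤ δ' → (∀ l, η ≤ y l ∧ y l ≤ η + δ) →
      |Ψ (lift y) h| ≤ C) : PertInt k η δ δ' Ψ := by
  obtain ⟨hp, hae⟩ := pertLaw_facts k η hδ hδ'
  exact Integrable.of_bound hm.aestronglyMeasurable C
    (hae.mono fun p h => (Real.norm_eq_abs _).trans_le (hC p.2 p.1 h.1.1 h.1.2 h.2))

theorem PertInt.const (hδ : 0 < δ) (hδ' : 0 < δ') (C : ℝ) : PertInt k η δ δ' fun _ _ => C :=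
  .of_bdd hδ hδ' measurable_const fun _ _ _ _ _ => le_rfl

theorem PertInt.add {Ψ Φ : (ℕ → ℝ) → ℝ → ℝ} (h : PertInt k η δ δ' Ψ) (h' : PertInt k η δ δ' Φ) :
    PertInt k η δ δ' fun τ s => Ψ τ s + Φ τ s :=
  Integrable.add h h'

theorem PertInt.sub {Ψ Φ : (ℕ → ℝ) → ℝ → ℝ} (h : PertInt k η δ δ' Ψ) (h' : PertInt k η δ δ' Φ) :
    PertInt k η δ δ' fun τ s => Ψ τ s - Φ τ s :=
  Integrable.sub h h'

theorem PertInt.const_mul {Ψ : (ℕ → ℝ) → ℝ → ℝ} (h : PertInt k η δ δ' Ψ) (C : ℝ) :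
    PertInt k η δ δ' fun τ s => C * Ψ τ s :=
  Integrable.const_mul h C

theorem PertInt.abs {Ψ : (ℕ → ℝ) → ℝ → ℝ} (h : PertInt k η δ δ' Ψ) :
    PertInt k η δ δ' fun τ s => |Ψ τ s| :=
  Integrable.abs h

theorem PertInt.sum {ι : Type} (S : Finset ι) {Ψ : ι → (ℕ → ℝ) → ℝ → ℝ}
    (h : ∀ i ∈ S, PertInt k η δ δ' (Ψ i)) : PertInt k η δ δ' fun τ s => ∑ i ∈ S, Ψ i τ s :=
  integrable_finsetSum _ h

theorem pertAvg_mono {Ψ Φ : (ℕ → ℝ) → ℝ → ℝ} (hδ : 0 < δ) (hδ' : 0 < δ')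
    (hΨ : PertInt k η δ δ' Ψ) (hΦ : PertInt k η δ δ' Φ)
    (h : ∀ (y : Fin k → ℝ) (s : ℝ), 0 ≤ s → s ≤ δ' → (∀ l, η ≤ y l ∧ y l ≤ η + δ) →
      Ψ (lift y) s ≤ Φ (lift y) s) :
    pertAvg k η δ δ' Ψ ≤ pertAvg k η δ δ' Φ := by
  rw [pertAvg_eq hδ hδ' hΨ, pertAvg_eq hδ hδ' hΦ]
  exact integral_mono_ae hΨ hΦ ((pertLaw_facts k η hδ hδ').2.mono fun p hp =>
    h p.2 p.1 hp.1.1 hp.1.2 hp.2)

theorem pertAvg_const (hδ : 0 < δ) (hδ' : 0 < δ') (C : ℝ) :
    pertAvg k η δ δ' (fun _ _ => C) = C := by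
  have := (pertLaw_facts k η hδ hδ').1
  rw [pertAvg_eq hδ hδ' (.const hδ hδ' C)]
  simp

theorem pertAvg_add {Ψ Φ : (ℕ → ℝ) → ℝ → ℝ} (hδ : 0 < δ) (hδ' : 0 < δ')
    (hΨ : PertInt k η δ δ' Ψ) (hΦ : PertInt k η δ δ' Φ) :
    pertAvg k η δ δ' (fun τ s => Ψ τ s + Φ τ s) = pertAvg k η δ δ' Ψ + pertAvg k η δ δ' Φ := by
  rw [pertAvg_eq hδ hδ' hΨ, pertAvg_eq hδ hδ' hΦ, pertAvg_eq hδ hδ' (hΨ.add hΦ)]
  exact integral_add hΨ hΦ

theorem pertAvg_const_mul {Ψ : (ℕ → ℝ) → ℝ → ℝ} (hδ : 0 < δ) (hδ' : 0 < δ')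
    (hΨ : PertInt k η δ δ' Ψ) (C : ℝ) :
    pertAvg k η δ δ' (fun τ s => C * Ψ τ s) = C * pertAvg k η δ δ' Ψ := by
  rw [pertAvg_eq hδ hδ' hΨ, pertAvg_eq hδ hδ' (hΨ.const_mul C)]
  exact integral_const_mul C _

/-- Some perturbation is no worse than the average. -/
theorem exists_le_pertAvg {Ψ : (ℕ → ℝ) → ℝ → ℝ} (hδ : 0 < δ) (hδ' : 0 < δ')
    (hΨ : PertInt k η δ δ' Ψ) :
    ∃ (y : Fin k → ℝ) (h : ℝ), 0 ≤ h ∧ h ≤ δ' ∧ (∀ l, η ≤ y l ∧ y l ≤ η + δ) ∧
      Ψ (lift y) h ≤ pertAvg k η δ δ' Ψ := by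
  obtain ⟨hp, hae⟩ := pertLaw_facts k η hδ hδ'
  have hnull : pertLaw k η δ δ' {p | ¬ ((0 ≤ p.1 ∧ p.1 ≤ δ') ∧ ∀ l, η ≤ p.2 l ∧ p.2 l ≤ η + δ)} = 0 :=
    hae
  obtain ⟨p, hp', hle⟩ := exists_notMem_null_le_integral (f := fun p : ℝ × (Fin k → ℝ) => Ψ (lift p.2) p.1)
    hΨ hnull
  rw [Set.mem_setOf_eq, not_not] at hp'
  exact ⟨p.2, p.1, hp'.1.1, hp'.1.2, hp'.2, hle.trans_eq (pertAvg_eq hδ hδ' hΨ).symm⟩

variable {d N : ℕ} {m : Measure (Fin N → Fin N → ℝ)} (β : ℝ) (α : Fin (d + 1) → ℝ)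
  (c : Fin N → Fin (d + 1)) (σ : ℕ → ℝ)

theorem gibU_meas (hm : IsHaarOrth m) {φ : Mov k N → (Fin N → Bool) → ℝ}
    (hφ : ∀ s, Measurable fun p => φ p s) :
    Measurable fun q : (Fin k → ℝ) × ℝ =>
      gibU m k β (raise α q.2) c σ (lift q.1) fun U => φ (q, U) := by
  have := hm.1
  have h : Measurable (movE β α c σ fun p _ s => φ p s) :=
    movE_meas β α c σ (φ := fun p _ s => φ p s)
      (measurable_from_prod_countable_left fun s => (hφ s).comp measurable_fst)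
  refine (Eq.subst (motive := Measurable) ?_
    (StronglyMeasurable.integral_prod_right' (ν := m) h.stronglyMeasurable).measurable)
  funext q
  refine integral_congr_ae (ae_of_all _ fun U => ?_)
  simp only [movE, rootE, groot, hamU_eq]

theorem pairU_meas (hm : IsHaarOrth m) (j : ℕ) {ψ : Mov k N → (Fin N → Bool) → (Fin N → Bool) → ℝ}
    (hψ : ∀ x y, Measurable fun p => ψ p x y) :
    Measurable fun q : (Fin k → ℝ) × ℝ =>
      pairU m k β (raise α q.2) c σ (lift q.1) j fun U => ψ (q, U) := by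
  have := hm.1
  have h : Measurable fun p : Mov k N =>
      P157.Rsb.cnd (stdG (Fld N)) (cubeLaw N)
        (gham (k := k) (fdata β (raise α p.1.2) c p.2) (ampV σ (lift p.1.1)))
        (fun z _ => pairCnd (stdG (Fld N)) (cubeLaw N)
          (gham (k := k) (fdata β (raise α p.1.2) c p.2) (ampV σ (lift p.1.1)))
          (fun _ x _ x' => ψ p x x') j z) 0 fun _ _ => 0 :=
    measurable_root_pair (H := fun p : Mov k N =>
      gham (k := k) (fdata β (raise α p.1.2) c p.2) (ampV σ (lift p.1.1))) (Ψ := ψ)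
      (gham_mov_meas β α c σ) (measurable_from_prod_countable_left fun xy => hψ xy.1 xy.2) j _
  refine (Eq.subst (motive := Measurable) ?_
    (StronglyMeasurable.integral_prod_right' (ν := m) h.stronglyMeasurable).measurable)
  funext q
  refine integral_congr_ae (ae_of_all _ fun U => ?_)
  simp only [hamU_eq]

theorem topOv_meas (x y : Fin N → Bool) :
    Measurable fun U : Fin N → Fin N → ℝ => topOv c U x y := by
  unfold topOv rotate; fun_prop

theorem qTop_meas (hm : IsHaarOrth m) (j : ℕ) :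
    Measurable fun q : (Fin k → ℝ) × ℝ => qTop m k β (raise α q.2) c σ (lift q.1) j := by
  unfold qTop
  split_ifs
  · exact measurable_const
  · exact pairU_meas β α c σ hm j (ψ := fun p => fun x y => topOv c p.2 x y)
      fun x y => (topOv_meas c x y).comp measurable_snd

theorem qSpin_meas (hm : IsHaarOrth m) (j : ℕ) :
    Measurable fun q : (Fin k → ℝ) × ℝ => qSpin m k β (raise α q.2) c σ (lift q.1) j := by
  unfold qSpin
  split_ifs
  · exact measurable_const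
  · exact pairU_meas β α c σ hm j (ψ := fun _ => fun x y => spinOv x y) fun x y => measurable_const

theorem topSq_div_meas (s : Fin N → Bool) :
    Measurable fun p : Mov k N => topSq c p.2 s / N :=
  ((continuous_topSq c s).measurable.comp measurable_snd).div_const _

theorem pTop_meas (hm : IsHaarOrth m) :
    Measurable fun q : (Fin k → ℝ) × ℝ => pTop m k β (raise α q.2) c σ (lift q.1) :=
  gibU_meas β α c σ hm (φ := fun p => fun s => topSq c p.2 s / N) (topSq_div_meas c)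

theorem topErr_meas (hm : IsHaarOrth m) :
    Measurable fun q : (Fin k → ℝ) × ℝ => topErr m k β (raise α q.2) c σ (lift q.1) := by
  unfold topErr
  refine ((Finset.measurable_sum _ fun j _ => ?_).const_mul _).add ?_
  · exact pairU_meas β α c σ hm j
      (ψ := fun p => fun x y => |topOv c p.2 x y - qTop m k β (raise α p.1.2) c σ (lift p.1.1) j|)
      fun x y => continuous_abs.measurable.comp (((topOv_meas c x y).comp measurable_snd).sub
        ((qTop_meas β α c σ hm j).comp measurable_fst))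
  · exact gibU_meas β α c σ hm
      (φ := fun p => fun s => |topSq c p.2 s / N - pTop m k β (raise α p.1.2) c σ (lift p.1.1)|)
      fun s => continuous_abs.measurable.comp ((topSq_div_meas c s).sub
        ((pTop_meas β α c σ hm).comp measurable_fst))

theorem pTop_mem (hm : IsHaarOrth m) (τ : ℕ → ℝ) (a : Fin (d + 1) → ℝ) :
    0 ≤ pTop m k β a c σ τ ∧ pTop m k β a c σ τ ≤ 1 := by
  have := hm.1
  refine ⟨integral_nonneg fun U => cnd_nonneg
    (fun _ s => div_nonneg (topSq_nonneg c U s) (Nat.cast_nonneg N)) 0 _, ?_⟩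
  have hb : ∀ U, IsOrth U → |gibR β a c U k σ τ fun s => topSq c U s / N| ≤ 1 := fun U hU =>
    abs_gibR_le β a c U σ τ fun s => by
      rw [abs_of_nonneg (div_nonneg (topSq_nonneg c U s) (Nat.cast_nonneg N))]
      exact div_le_one_of_le₀ (topSq_le c U hU s) (Nat.cast_nonneg N)
  rw [pTop, gibU_eq]
  refine (le_abs_self _).trans ((Real.norm_eq_abs _).symm.trans_le
    ((norm_integral_le_of_norm_le_const (μ := m) (C := (1 : ℝ))
      (hm.2.1.mono fun U hU => (Real.norm_eq_abs _).trans_le (hb U hU))).trans (by simp)))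

theorem topErr_mem (hm : IsHaarOrth m) (hN : 1 ≤ N) (τ : ℕ → ℝ) (a : Fin (d + 1) → ℝ) :
    0 ≤ topErr m k β a c σ τ ∧ topErr m k β a c σ τ ≤ 4 := by
  have := hm.1
  have hp := isPath_qTop (k := k) β a c hm hN σ τ
  have hbd : ∀ {Φ : (Fin N → Fin N → ℝ) → ℝ}, (∀ U, IsOrth U → |Φ U| ≤ 2) → ∫ U, Φ U ∂m ≤ 2 :=
    fun {Φ} h => (le_abs_self _).trans ((Real.norm_eq_abs _).symm.trans_le
      ((norm_integral_le_of_norm_le_const (μ := m) (C := (2 : ℝ))
        (hm.2.1.mono fun U hU => (Real.norm_eq_abs _).trans_le (h U hU))).trans (by simp)))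
  constructor
  · unfold topErr
    refine add_nonneg (mul_nonneg P157.Rsb.mass_pos.le (sum_nonneg fun j _ => ?_)) ?_
    · refine integral_nonneg fun U => cnd_nonneg (fun z _ => ?_) 0 _
      exact cnd_nonneg (fun _ _ => cnd_nonneg (fun _ _ => abs_nonneg _) _ _) _ _
    · exact integral_nonneg fun U => cnd_nonneg (fun _ _ => abs_nonneg _) 0 _
  · unfold topErr
    rw [gibU_eq]
    have h1 : ∀ j ∈ Icc 0 k,
        pairU m k β a c σ τ j (fun U x y => |topOv c U x y - qTop m k β a c σ τ j|) ≤ 2 := fun j hj => by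
      rw [pairU_eq]
      refine hbd fun U hU => abs_pairR_le β a c U σ τ j fun x y => (abs_abs _).trans_le
        ((abs_sub _ _).trans ?_)
      obtain ⟨u0, u1⟩ := path_mem hp (mem_Icc.1 hj).2
      rw [abs_of_nonneg u0]
      linarith [abs_topOv_le c U hU x y]
    have h2 : ∫ U, gibR β a c U k σ τ (fun s => |topSq c U s / N - pTop m k β a c σ τ|) ∂m ≤ 2 := by
      refine hbd fun U hU => abs_gibR_le β a c U σ τ fun s => (abs_abs _).trans_le
        ((abs_sub _ _).trans ?_)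
      obtain ⟨v0, v1⟩ := pTop_mem (k := k) β c σ hm τ a
      rw [abs_of_nonneg v0, abs_of_nonneg (div_nonneg (topSq_nonneg c U s) (Nat.cast_nonneg N))]
      linarith [div_le_one_of_le₀ (topSq_le c U hU s) (Nat.cast_nonneg N : (0 : ℝ) ≤ N)]
    have h3 := mul_le_mul_of_nonneg_left (sum_le_card_nsmul _ _ (2 : ℝ) h1)
      (P157.Rsb.mass_pos (k := k)).le
    rw [Nat.card_Icc, nsmul_eq_mul] at h3
    have h4 : P157.Rsb.mass k * (((k + 1 - 0 : ℕ) : ℝ) * 2) = 2 := by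
      rw [P157.Rsb.mass]; push_cast; field_simp
    linarith

theorem PertInt.of_meas {Ψ : (ℕ → ℝ) → ℝ → ℝ} (hδ : 0 < δ) (hδ' : 0 < δ')
    (hm : Measurable fun q : (Fin k → ℝ) × ℝ => Ψ (lift q.1) q.2) {C : ℝ}
    (hC : ∀ (y : Fin k → ℝ) (h : ℝ), |Ψ (lift y) h| ≤ C) : PertInt k η δ δ' Ψ :=
  PertInt.of_bdd hδ hδ' (hm.comp (measurable_snd.prodMk measurable_fst)) fun y h _ _ _ => hC y h

theorem pertInt_topErr (hm : IsHaarOrth m) (hN : 1 ≤ N) (hδ : 0 < δ) (hδ' : 0 < δ') :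
    PertInt k η δ δ' fun τ h => topErr m k β (raise α h) c σ τ := by
  refine PertInt.of_meas (C := 4) hδ hδ' ?_ fun y h => ?_
  · exact topErr_meas β α c σ hm
  obtain ⟨h0, h1⟩ := topErr_mem (k := k) β c σ hm hN (lift y) (raise α h)
  rwa [abs_of_nonneg h0]

theorem pertInt_qTop (hm : IsHaarOrth m) (hN : 1 ≤ N) (hδ : 0 < δ) (hδ' : 0 < δ') {j : ℕ}
    (hj : j ≤ k) :
    PertInt k η δ δ' fun τ h => qTop m k β (raise α h) c σ τ j := by
  refine PertInt.of_meas (C := 1) hδ hδ' ?_ fun y h => ?_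
  · exact qTop_meas β α c σ hm j
  obtain ⟨h0, h1⟩ := path_mem (isPath_qTop (k := k) β (raise α h) c hm hN σ (lift y)) hj
  rwa [abs_of_nonneg h0]

theorem pertInt_qSpin (hm : IsHaarOrth m) (hN : 1 ≤ N) (hδ : 0 < δ) (hδ' : 0 < δ') {j : ℕ}
    (hj : j ≤ k) :
    PertInt k η δ δ' fun τ h => qSpin m k β (raise α h) c σ τ j := by
  refine PertInt.of_meas (C := 1) hδ hδ' ?_ fun y h => ?_
  · exact qSpin_meas β α c σ hm j
  obtain ⟨h0, h1⟩ := path_mem (isPath_qSpin (k := k) β (raise α h) c hm hN σ (lift y)) hj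
  rwa [abs_of_nonneg h0]

theorem pertInt_pTop (hm : IsHaarOrth m) (hδ : 0 < δ) (hδ' : 0 < δ') :
    PertInt k η δ δ' fun τ h => pTop m k β (raise α h) c σ τ := by
  refine PertInt.of_meas (C := 1) hδ hδ' ?_ fun y h => ?_
  · exact pTop_meas β α c σ hm
  obtain ⟨h0, h1⟩ := pTop_mem (k := k) β c σ hm (lift y) (raise α h)
  rwa [abs_of_nonneg h0]

end Vale.Agent.P166.Rsb.Syn
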