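import Mathlib

/-!
# P166: deviations of the slope of a random convex function, averaged over an interval

`V t` is convex in `t` with slope `P t`, the values concentrate and the thermal variance `W` has a
small integral: then the deviation of the slope from its mean is small on average.
-/

open MeasureTheory Real

namespace Vale.Agent.P166.Rsb.Syn

variable {Ω : Type} [MeasurableSpace Ω] {m : Measure Ω} [IsProbabilityMeasure m]
  {V P W F : ℝ → Ω → ℝ} {lo hi R h θ E S : ℝ}

/-- The average deviation over an interval. -/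
theorem slice_dev (hlh : lo ≤ hi) (hh : 0 < h) (hθ : 0 < θ) (hR : 0 ≤ R)
    (hV : ∀ s ∈ Set.Icc lo hi, Integrable (V s) m) (hP : ∀ s ∈ Set.Icc lo hi, Integrable (P s) m)
    (hW : ∀ s ∈ Set.Icc lo hi, Integrable (W s) m)
    (htan : ∀ s ∈ Set.Icc lo hi, ∀ t ∈ Set.Icc lo hi, ∀ᵐ ω ∂m, V s ω + (t - s) * P s ω ≤ V t ω)
    (hPR : ∀ s ∈ Set.Icc lo hi, ∀ᵐ ω ∂m, |P s ω| ≤ R)
    (hE : ∀ s ∈ Set.Icc lo hi, ∫ ω, |V s ω - ∫ ω, V s ω ∂m| ∂m ≤ E)
    (hF0 : ∀ s ω, 0 ≤ F s ω)
    (hF : ∀ s ∈ Set.Icc lo hi, ∀ᵐ ω ∂m,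
      F s ω ≤ θ / 2 + W s ω / (2 * θ) + |P s ω - ∫ ω, P s ω ∂m|)
    (hWs : IntegrableOn (fun s => ∫ ω, W s ω ∂m) (Set.Icc lo hi))
    (hS : ∫ s in Set.Icc lo hi, ∫ ω, W s ω ∂m ≤ S) :
    ∫ s in Set.Icc lo hi, ∫ ω, F s ω ∂m ≤ (hi - lo) * (θ / 2 + 3 * E / h) + S / (2 * θ) + 8 * R * h := by
  set J := Set.Icc lo hi
  set vb := fun s => ∫ ω, V s ω ∂m
  set pb := fun s => ∫ ω, P s ω ∂m
  set cl := fun s : ℝ => max lo (min hi s)
  have hcl : ∀ s, cl s ∈ J := fun s => ⟨le_max_left _ _, max_le hlh (min_le_left _ _)⟩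
  have hcleq : ∀ s ∈ J, cl s = s := fun s hs => by
    simp only [cl, min_eq_right hs.2, max_eq_right hs.1]
  set pe := fun s => pb (cl s)
  have hpbR : ∀ s ∈ J, |pb s| ≤ R := fun s hs => by
    refine abs_integral_le_integral_abs.trans ?_
    refine (integral_mono_ae (hP s hs).abs (integrable_const R) (hPR s hs)).trans ?_
    simp
  have htanm : ∀ s ∈ J, ∀ t ∈ J, vb s + (t - s) * pb s ≤ vb t := fun s hs t ht => by
    have h1 := integral_mono_ae ((hV s hs).add ((hP s hs).const_mul (t - s))) (hV t ht) (htan s hs t ht)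
    simp only [Pi.add_apply] at h1
    rwa [integral_add (hV s hs) ((hP s hs).const_mul _), integral_const_mul] at h1
  have hmono : Monotone pe := fun x y hxy => by
    have hxy' : cl x ≤ cl y := max_le_max le_rfl (min_le_min le_rfl hxy)
    rcases eq_or_lt_of_le hxy' with he | hlt
    · exact le_of_eq (congrArg pb he)
    · have h1 := htanm _ (hcl x) _ (hcl y)
      have h2 := htanm _ (hcl y) _ (hcl x)
      exact le_of_mul_le_mul_left (show (cl y - cl x) * pb (cl x) ≤ (cl y - cl x) * pb (cl y) by
        linarith) (by linarith)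
  have hpeR : ∀ s, |pe s| ≤ R := fun s => hpbR _ (hcl s)
  set i₁ := (Set.Icc lo (lo + h)).indicator fun _ : ℝ => (1 : ℝ)
  set i₂ := (Set.Icc (hi - h) hi).indicator fun _ : ℝ => (1 : ℝ)
  set G := fun s => pe (s + h) - pe (s - h) + 2 * R * (i₁ s + i₂ s)
  have hdev : ∀ s ∈ J, ∫ ω, |P s ω - pb s| ∂m ≤ G s + 3 * E / h := fun s hs => by
    have hPi : Integrable (fun ω => |P s ω - pb s|) m :=
      ((hP s hs).sub (integrable_const (pb s))).abs
    have h0 : 0 ≤ pe (s + h) - pe (s - h) := sub_nonneg.2 (hmono (by linarith))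
    have hE0 : 0 ≤ 3 * E / h := by
      have : 0 ≤ E := (integral_nonneg fun ω => abs_nonneg _).trans (hE s hs)
      positivity
    have hi0 : ∀ s, 0 ≤ i₁ s ∧ 0 ≤ i₂ s := fun s =>
      ⟨Set.indicator_nonneg (fun _ _ => zero_le_one) _, Set.indicator_nonneg (fun _ _ => zero_le_one) _⟩
    by_cases hc : lo + h ≤ s ∧ s ≤ hi - h
    · have hp : s + h ∈ J := ⟨by linarith [hs.1], by linarith [hc.2]⟩
      have hm' : s - h ∈ J := ⟨by linarith [hc.1], by linarith [hs.2]⟩
      set Δ := fun t ω => |V t ω - vb t|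
      have hΔ : ∀ t ∈ J, Integrable (Δ t) m := fun t ht => ((hV t ht).sub (integrable_const _)).abs
      have hpe : pe (s + h) - pe (s - h) = pb (s + h) - pb (s - h) := by
        simp only [pe, hcleq _ hp, hcleq _ hm']
      have hae : ∀ᵐ ω ∂m, |P s ω - pb s|
          ≤ (pb (s + h) - pb (s - h)) + (Δ (s + h) ω + Δ s ω + Δ (s - h) ω) / h := by
        filter_upwards [htan s hs _ hp, htan s hs _ hm'] with ω u1 u2
        have w1 := htanm _ hp s hs
        have w2 := htanm _ hm' s hs
        have m1 : pe (s - h) ≤ pe s := hmono (by linarith)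
        have m2 : pe s ≤ pe (s + h) := hmono (by linarith)
        simp only [pe, hcleq _ hp, hcleq _ hm', hcleq _ hs] at m1 m2
        have a1 := abs_le.1 (le_refl (Δ (s + h) ω))
        have a2 := abs_le.1 (le_refl (Δ s ω))
        have a3 := abs_le.1 (le_refl (Δ (s - h) ω))
        have p1 : 0 ≤ Δ (s + h) ω := abs_nonneg _
        have p2 : 0 ≤ Δ s ω := abs_nonneg _
        have p3 : 0 ≤ Δ (s - h) ω := abs_nonneg _
        have hX : h * |P s ω - pb s|
            ≤ h * (pb (s + h) - pb (s - h)) + (Δ (s + h) ω + Δ s ω + Δ (s - h) ω) := by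
          rw [show h * |P s ω - pb s| = |h * (P s ω - pb s)| by rw [abs_mul, abs_of_pos hh], abs_le]
          simp only [Δ] at a1 a2 a3 p1 p2 p3 ⊢
          constructor <;> nlinarith
        rw [← sub_le_iff_le_add', le_div_iff₀ hh]
        linarith
      have hsum := ((hΔ _ hp).add (hΔ _ hs)).add (hΔ _ hm')
      have hgi := (integrable_const (pb (s + h) - pb (s - h))).add (hsum.div_const h)
      refine (integral_mono_ae hPi hgi hae).trans ?_
      rw [integral_add' (integrable_const _) (hsum.div_const h),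
        integral_div (f := Δ (s + h) + Δ s + Δ (s - h)), integral_const, probReal_univ, one_smul,
        integral_add' ((hΔ _ hp).add (hΔ _ hs)) (hΔ _ hm'), integral_add' (hΔ _ hp) (hΔ _ hs)]
      have h3 : (∫ ω, Δ (s + h) ω ∂m) + (∫ ω, Δ s ω ∂m) + (∫ ω, Δ (s - h) ω ∂m) ≤ 3 * E := by
        linarith [hE _ hp, hE _ hs, hE _ hm']
      have h4 := div_le_div_of_nonneg_right h3 hh.le
      have h5 := mul_nonneg (show 0 ≤ 2 * R by positivity) (add_nonneg (hi0 s).1 (hi0 s).2)
      simp only [G, hpe]
      linarith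
    · have h2R : ∫ ω, |P s ω - pb s| ∂m ≤ 2 * R := by
        refine (integral_mono_ae hPi (integrable_const (2 * R)) ?_).trans (by simp)
        filter_upwards [hPR s hs] with ω hω
        exact (abs_sub _ _).trans (by linarith [hpbR s hs])
      have hone : 1 ≤ i₁ s + i₂ s := by
        rcases not_and_or.1 hc with hn | hn
        · have : i₁ s = 1 := Set.indicator_of_mem (show s ∈ Set.Icc lo (lo + h) from ⟨hs.1, (not_le.1 hn).le⟩) _
          linarith [(hi0 s).2]
        · have : i₂ s = 1 := Set.indicator_of_mem (show s ∈ Set.Icc (hi - h) hi from ⟨(not_le.1 hn).le, hs.2⟩) _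
          linarith [(hi0 s).1]
      have := mul_le_mul_of_nonneg_left hone (show 0 ≤ 2 * R by positivity)
      simp only [G]
      linarith
  have hlev : ∀ s ∈ J, ∫ ω, F s ω ∂m
      ≤ θ / 2 + 3 * E / h + (∫ ω, W s ω ∂m) / (2 * θ) + G s := fun s hs => by
    have hA := (integrable_const (μ := m) (θ / 2)).add ((hW s hs).div_const (2 * θ))
    have hB : Integrable (fun ω => |P s ω - pb s|) m := ((hP s hs).sub (integrable_const (pb s))).abs
    refine (integral_mono_of_nonneg (Filter.Eventually.of_forall (hF0 s)) (hA.add hB) (hF s hs)).trans ?_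
    rw [integral_add' hA hB, integral_add' (integrable_const _) ((hW s hs).div_const _),
      integral_div (f := W s), integral_const, probReal_univ, one_smul]
    have := hdev s hs
    linarith
  have hI1 : IntegrableOn (fun s => pe (s + h)) J :=
    (Monotone.monotoneOn (fun x y hxy => hmono (by linarith)) _).integrableOn_isCompact isCompact_Icc
  have hI2 : IntegrableOn (fun s => pe (s - h)) J :=
    (Monotone.monotoneOn (fun x y hxy => hmono (by linarith)) _).integrableOn_isCompact isCompact_Icc
  have hind : ∀ u v : ℝ, IntegrableOn ((Set.Icc u v).indicator fun _ : ℝ => (1 : ℝ)) J ∧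
      (u ≤ v → ∫ s in J, (Set.Icc u v).indicator (fun _ : ℝ => (1 : ℝ)) s ≤ v - u) := fun u v => by
    have hfull : Integrable ((Set.Icc u v).indicator fun _ : ℝ => (1 : ℝ)) :=
      (integrable_indicator_iff measurableSet_Icc).2 (integrableOn_const measure_Icc_lt_top.ne)
    refine ⟨hfull.integrableOn, fun huv => ?_⟩
    refine (setIntegral_le_integral hfull (Filter.Eventually.of_forall fun s =>
      Set.indicator_nonneg (fun _ _ => zero_le_one) _)).trans (le_of_eq ?_)
    rw [integral_indicator measurableSet_Icc, setIntegral_const, Real.volume_real_Icc_of_le huv,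
      smul_eq_mul, mul_one]
  have hi1 : IntegrableOn i₁ J := (hind lo (lo + h)).1
  have hi2 : IntegrableOn i₂ J := (hind (hi - h) hi).1
  have hG : IntegrableOn G J := (hI1.sub hI2).add ((hi1.add hi2).const_mul (2 * R))
  have hconv : ∫ s in J, G s ≤ 8 * R * h := by
    have e1 : ∫ s in J, G s = (∫ s in J, (pe (s + h) - pe (s - h))) + ∫ s in J, 2 * R * (i₁ s + i₂ s) :=
      integral_add (hI1.sub hI2) ((hi1.add hi2).const_mul (2 * R))
    have hp : ∀ s t, IntervalIntegrable pe volume s t := fun s t => hmono.intervalIntegrable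
    have key : ∀ u v, |∫ s in u..v, pe s| ≤ R * |v - u| := fun u v => by
      rw [← Real.norm_eq_abs]
      exact intervalIntegral.norm_integral_le_of_norm_le_const fun x _ =>
        (Real.norm_eq_abs _).trans_le (hpeR x)
    have h1 : ∫ s in J, (pe (s + h) - pe (s - h)) ≤ 4 * R * h := by
      rw [integral_sub hI1 hI2, integral_Icc_eq_integral_Ioc, integral_Icc_eq_integral_Ioc,
        ← intervalIntegral.integral_of_le hlh, ← intervalIntegral.integral_of_le hlh,
        intervalIntegral.integral_comp_add_right pe h, intervalIntegral.integral_comp_sub_right pe h,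
        intervalIntegral.integral_interval_sub_interval_comm' (hp _ _) (hp _ _) (hp _ _)]
      have k1 := key (hi - h) (hi + h)
      have k2 := key (lo - h) (lo + h)
      rw [show hi + h - (hi - h) = 2 * h by ring, abs_of_pos (by linarith : 0 < 2 * h)] at k1
      rw [show lo + h - (lo - h) = 2 * h by ring, abs_of_pos (by linarith : 0 < 2 * h)] at k2
      rw [abs_le] at k1 k2
      linarith
    have h2 : ∫ s in J, 2 * R * (i₁ s + i₂ s) ≤ 2 * R * (h + h) := by
      rw [integral_const_mul, integral_add hi1 hi2]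
      refine mul_le_mul_of_nonneg_left (add_le_add ?_ ?_) (by positivity)
      · exact ((hind lo (lo + h)).2 (by linarith)).trans_eq (by ring)
      · exact ((hind (hi - h) hi).2 (by linarith)).trans_eq (by ring)
    linarith
  have hC : IntegrableOn (fun _ : ℝ => θ / 2 + 3 * E / h) J :=
    integrableOn_const measure_Icc_lt_top.ne
  have hA := hC.add (hWs.div_const (2 * θ))
  refine (integral_mono_of_nonneg (Filter.Eventually.of_forall fun s => integral_nonneg (hF0 s))
    (hA.add hG) ?_).trans ?_
  · filter_upwards [ae_restrict_mem measurableSet_Icc] with s hs using hlev s hs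
  · rw [integral_add' hA hG, integral_add' hC (hWs.div_const _), integral_div, setIntegral_const,
      Real.volume_real_Icc_of_le hlh, smul_eq_mul]
    have h5 := div_le_div_of_nonneg_right hS (by positivity : 0 ≤ 2 * θ)
    linarith

end Vale.Agent.P166.Rsb.Syn
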