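import Vale.Agent.P166.Rsb.Sync.Fluct
import Vale.Agent.P166.Rsb.Sync.Slice

/-!
# P166: the two fluctuations along one parameter
-/

open MeasureTheory ProbabilityTheory Real Finset
open Vale.Agent.P157.Rsb (lift lift_succ lift_update cnd_nonneg)

namespace Vale.Agent.P166.Rsb.Syn

variable {d N k : ℕ} (m : Measure (Fin N → Fin N → ℝ)) (β : ℝ) (α : Fin (d + 1) → ℝ)
  (c : Fin N → Fin (d + 1)) (σ : ℕ → ℝ)

/-- The part of the fluctuation of a pairing that is not explained by the squared length. -/
noncomputable def excess (R : ℝ) (a : Fin k) (p : Mov k N) : ℝ :=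
  max 0 (movE β α c σ (devL m β α c σ a) p - R * movE β α c σ (devM m β α c σ) p)

/-- Its mean. -/
noncomputable def excessM (R : ℝ) (a : Fin k) (q : (Fin k → ℝ) × ℝ) : ℝ :=
  ∫ U, excess m β α c σ R a (q, U) ∂m

/-- The thermal variance in an amplitude at moving parameters. -/
noncomputable def varL (a : Fin k) (p : Mov k N) : ℝ :=
  movE β α c σ (fun p z s => obsL β α c a p z s * obsL β α c a p z s) p
    - movE β α c σ (obsL β α c a) p ^ 2

/-- The thermal variance in the shift at moving parameters. -/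
noncomputable def varM (p : Mov k N) : ℝ :=
  movE β α c σ (fun p z s => (β / 2 * obsB c p z s) * (β / 2 * obsB c p z s)) p
    - movE β α c σ (fun p z s => β / 2 * obsB c p z s) p ^ 2

variable {m β α c σ}

theorem movE_nonneg {φ : Mov k N → (Fin k → Fld N → ℝ) → (Fin N → Bool) → ℝ}
    (h : ∀ p z s, 0 ≤ φ p z s) (p : Mov k N) : 0 ≤ movE β α c σ φ p :=
  cnd_nonneg (fun z s => h p z s) 0 _

theorem var_reg {φ : Mov k N → (Fin k → Fld N → ℝ) → (Fin N → Bool) → ℝ} {R : ℝ}
    (hφ : MovTame R φ) :
    Measurable (fun p => movE β α c σ (fun p z s => φ p z s * φ p z s) p - movE β α c σ φ p ^ 2) ∧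
      ∃ M, ∀ p, MovOK R p →
        |movE β α c σ (fun p z s => φ p z s * φ p z s) p - movE β α c σ φ p ^ 2| ≤ M := by
  obtain ⟨M, _, hM⟩ := movE_bound β α c σ (hφ.mul hφ)
  obtain ⟨M', hM0, hM'⟩ := movE_bound β α c σ hφ
  refine ⟨(movE_meas β α c σ (hφ.mul hφ).1).sub ((movE_meas β α c σ hφ.1).pow_const 2),
    M + M' ^ 2, fun p hp => (abs_sub _ _).trans (add_le_add (hM p hp) ?_)⟩
  rw [abs_pow]
  exact pow_le_pow_left₀ (abs_nonneg _) (hM' p hp) 2

theorem movTame_half (R : ℝ) :
    MovTame (k := k) (N := N) R fun p z s => β / 2 * obsB c p z s :=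
  (movTame_par (N := N) (R := R) (B := |β / 2|) (f := fun _ => β / 2) measurable_const
    fun _ _ => le_rfl).mul (movTame_topSq (c := c) R)

/-- Along a segment of parameters the average variance is small when its integral is small at every
orthogonal rotation. -/
theorem var_int (hm : IsHaarOrth m) {R M S lo hi : ℝ} {Wp : Mov k N → ℝ} (hWm : Measurable Wp)
    (hWb : ∀ p, MovOK R p → |Wp p| ≤ M) {γ : ℝ → (Fin k → ℝ) × ℝ} (hγ : Measurable γ)
    (hγR : ∀ s ∈ Set.Icc lo hi, (∀ l, |(γ s).1 l| ≤ R) ∧ |(γ s).2| ≤ R)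
    (hS : ∀ U, IsOrth U → ∫ s in Set.Icc lo hi, Wp (γ s, U) ≤ S) :
    IntegrableOn (fun s => ∫ U, Wp (γ s, U) ∂m) (Set.Icc lo hi) ∧
      ∫ s in Set.Icc lo hi, ∫ U, Wp (γ s, U) ∂m ≤ S := by
  have := hm.1
  have hJ : IsFiniteMeasure (volume.restrict (Set.Icc lo hi)) :=
    isFiniteMeasure_restrict.2 measure_Icc_lt_top.ne
  have hW2 : Measurable (Function.uncurry fun s U => Wp (γ s, U)) :=
    hWm.comp ((hγ.comp measurable_fst).prodMk measurable_snd)
  have hint : Integrable (Function.uncurry fun s U => Wp (γ s, U))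
      ((volume.restrict (Set.Icc lo hi)).prod m) := by
    refine Integrable.of_bound hW2.aestronglyMeasurable M ?_
    filter_upwards [Measure.quasiMeasurePreserving_fst.ae (ae_restrict_mem measurableSet_Icc),
      Measure.quasiMeasurePreserving_snd.ae hm.2.1] with p hp1 hp2
    exact (Real.norm_eq_abs _).trans_le (hWb _ ⟨(hγR _ hp1).1, (hγR _ hp1).2, hp2⟩)
  refine ⟨hint.integral_prod_left, ?_⟩
  rw [integral_integral_swap hint]
  refine (integral_mono_ae hint.integral_prod_right (integrable_const S)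
    (hm.2.1.mono fun U hU => hS U hU)).trans ?_
  simp

/-- The fluctuation of a pairing averaged over its amplitude. -/
theorem amp_avg (hm : IsHaarOrth m) {η δ R hh θ E : ℝ} (hη : 0 < η) (hδ : 0 < δ)
    (hR : η + δ ≤ R) (hhh : 0 < hh) (hθ : 0 < θ) (a : Fin k) (y : Fin k → ℝ)
    (hy : ∀ l, η ≤ y l ∧ y l ≤ η + δ) (h : ℝ) (hh' : |h| ≤ R)
    (hE : ∀ τ : ℕ → ℝ, (∀ l, |τ l| ≤ R) → ∫ U, |rootU k β (raise α h) c σ τ U
        - ∫ V, rootU k β (raise α h) c σ τ V ∂m| ∂m ≤ E) :
    ∫ s in Set.Icc η (η + δ), excessM m β α c σ R a (Function.update y a s, h)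
      ≤ δ * (θ / 2 + 3 * E / hh) + 2 * R * N / P157.Rsb.mass k / (2 * θ) + 8 * (R * N) * hh := by
  have := hm.1
  have hR0 : 0 ≤ R := by linarith
  set α' := raise α h
  set γ : ℝ → (Fin k → ℝ) × ℝ := fun s => (Function.update y a s, h)
  have hγ : Measurable γ :=
    (measurable_update y).prodMk measurable_const
  have hγR : ∀ s ∈ Set.Icc η (η + δ), (∀ l, |(γ s).1 l| ≤ R) ∧ |(γ s).2| ≤ R := fun s hs => by
    refine ⟨fun l => ?_, hh'⟩
    simp only [γ, Function.update_apply]
    split_ifs
    · exact abs_le.2 ⟨by linarith [hs.1], by linarith [hs.2]⟩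
    · exact abs_le.2 ⟨by linarith [(hy l).1], by linarith [(hy l).2]⟩
  have hτ : ∀ s, lift (γ s).1 = Function.update (lift y) ((a : ℕ) + 1) s := fun s => lift_update y a s
  have hτR : ∀ s ∈ Set.Icc η (η + δ), ∀ l, |lift (γ s).1 l| ≤ R := fun s hs l => by
    unfold lift
    split_ifs
    · exact (hγR s hs).1 _
    · rw [abs_zero]; exact hR0
  have eP : ∀ s U, movE β α c σ (obsL β α c a) (γ s, U) = ampSlope β α' c U σ (lift y) a s :=
    fun s U => by
      simp only [movE, ampSlope, hτ s]
      refine congrArg (rootE β α' c U σ _) (funext₂ fun z x => ?_)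
      simp only [obsL, γ, Function.update_self, α']
  have eW : ∀ s U, varL β α c σ a (γ s, U) = ampVar β α' c U σ (lift y) a s := fun s U => by
    rw [varL, ampVar, eP]
    simp only [movE, hτ s]
    refine congrArg (fun φ => rootE β α' c U σ _ φ - _) (funext₂ fun z x => ?_)
    simp only [obsL, γ, Function.update_self, α', pow_two]
  obtain ⟨hWm, MW, hMW⟩ := var_reg (β := β) (α := α) (c := c) (σ := σ)
    (movTame_obsL (β := β) (α := α) (c := c) R a)
  obtain ⟨MP, _, hMP⟩ := movE_bound β α c σ (movTame_obsL (β := β) (α := α) (c := c) R a)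
  have hPi : ∀ s ∈ Set.Icc η (η + δ), Integrable (fun U => movE β α c σ (obsL β α c a) (γ s, U)) m :=
    fun s hs => ((int_mov hm (movE_meas β α c σ (movTame_obsL R a).1) hMP).2 _ (hγR s hs).1
      (hγR s hs).2).1
  have hWi : ∀ s ∈ Set.Icc η (η + δ), Integrable (fun U => varL β α c σ a (γ s, U)) m :=
    fun s hs => ((int_mov hm hWm hMW).2 _ (hγR s hs).1 (hγR s hs).2).1
  have hVi : ∀ s, Integrable (fun U => ampVal β α' c U σ (lift y) a s) m := fun s =>
    (rootU_integrable β α' c hm σ (Function.update (lift y) ((a : ℕ) + 1) s)).add (integrable_const _)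
  obtain ⟨hWs, hS⟩ := var_int hm hWm hMW hγ hγR
    (S := 2 * R * N / P157.Rsb.mass k) fun U hU => by
      change ∫ s in Set.Icc η (η + δ), varL β α c σ a (γ s, U) ≤ _
      simp only [eW]
      exact int_ampVar_le β α' c U σ (lift y) a hU (by linarith) (abs_le.2 ⟨by linarith, by linarith⟩)
        (abs_le.2 ⟨by linarith, by linarith⟩)
  have hmain := slice_dev (m := m) (lo := η) (hi := η + δ) (h := hh) (θ := θ) (R := R * N) (E := E)
    (S := 2 * R * N / P157.Rsb.mass k)
    (V := fun s U => ampVal β α' c U σ (lift y) a s)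
    (P := fun s U => movE β α c σ (obsL β α c a) (γ s, U))
    (W := fun s U => varL β α c σ a (γ s, U))
    (F := fun s U => excess m β α c σ R a (γ s, U))
    (by linarith) hhh hθ (by positivity) (fun s _ => hVi s) hPi hWi
    (fun s _ t _ => hm.2.1.mono fun U hU => by
      simp only [eP]
      exact ampVal_tangent β α' c U σ (lift y) a t hU s)
    (fun s hs => hm.2.1.mono fun U hU => by
      simp only [eP]
      refine (abs_ampSlope_le β α' c U σ (lift y) a s hU).trans
        (mul_le_mul_of_nonneg_right (abs_le.2 ⟨by linarith [hs.1], by linarith [hs.2]⟩)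
          (Nat.cast_nonneg N)))
    (fun s hs => by
      refine le_trans (le_of_eq ?_) (hE (lift (γ s).1) (hτR s hs))
      simp only [ampVal, hτ s]
      rw [integral_add (rootU_integrable β α' c hm σ _) (integrable_const _), integral_const,
        probReal_univ, one_smul]
      refine integral_congr_ae (ae_of_all _ fun U => ?_)
      simp only [add_sub_add_right_eq_sub, α'])
    (fun s U => le_max_left _ _)
    (fun s hs => hm.2.1.mono fun U hU => by
      have hdev := amp_dev β α' c U σ (lift y) a s hθ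
        (meanL m β α c σ a (γ s) - s * (N - meanB m β α c σ (γ s))) (meanB m β α c σ (γ s))
      rw [sub_add_cancel] at hdev
      have eL : movE β α c σ (devL m β α c σ a) (γ s, U)
          = rootE β α' c U σ (Function.update (lift y) ((a : ℕ) + 1) s) (fun z x =>
              |fobs (fdata β α' c U) a z x
                - (meanL m β α c σ a (γ s) - s * (N - meanB m β α c σ (γ s)))|) := by
        simp only [movE, hτ s]
        refine congrArg (rootE β α' c U σ _) (funext₂ fun z x => ?_)
        simp only [devL, γ, Function.update_self, α']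
      have eM : gibR β α' c U k σ (Function.update (lift y) ((a : ℕ) + 1) s)
            (fun x => |topSq c U x - meanB m β α c σ (γ s)|)
          = movE β α c σ (devM m β α c σ) (γ s, U) := by
        rw [gibR, hamU_eq]
        simp only [movE, hτ s]
        rfl
      rw [← eL, eM] at hdev
      have hp : ∫ V, movE β α c σ (obsL β α c a) (γ s, V) ∂m = meanL m β α c σ a (γ s) := rfl
      rw [hp, eW, eP]
      have h0 : 0 ≤ θ / 2 + ampVar β α' c U σ (lift y) a s / (2 * θ)
          + |ampSlope β α' c U σ (lift y) a s - meanL m β α c σ a (γ s)| := by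
        have := ampVar_nonneg β α' c U σ (lift y) a s
        positivity
      refine max_le h0 ?_
      have hG : 0 ≤ movE β α c σ (devM m β α c σ) (γ s, U) := movE_nonneg (fun _ _ _ => abs_nonneg _) _
      have hs' : |s| ≤ R := abs_le.2 ⟨by linarith [hs.1], by linarith [hs.2]⟩
      linarith [mul_le_mul_of_nonneg_right hs' hG])
    hWs hS
  simpa [excessM, γ] using hmain

/-- The fluctuation of the squared length averaged over the shift. -/
theorem shift_avg (hm : IsHaarOrth m) {δ' R hh θ E : ℝ} (hδ' : 0 < δ') (hR : δ' ≤ R) (hhh : 0 < hh)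
    (hθ : 0 < θ) (hβ : 0 < β) (y : Fin k → ℝ) (hy : ∀ l, |y l| ≤ R)
    (hE : ∀ h, 0 ≤ h → h ≤ δ' → ∫ U, |rootU k β (raise α h) c σ (lift y) U
        - ∫ V, rootU k β (raise α h) c σ (lift y) V ∂m| ∂m ≤ E) :
    β / 2 * ∫ h in Set.Icc 0 δ', flucM m β α c σ (y, h)
      ≤ δ' * (θ / 2 + 3 * E / hh) + β * N / P157.Rsb.mass k / (2 * θ) + 8 * (β / 2 * N) * hh := by
  have := hm.1
  set τ := lift y
  set γ : ℝ → (Fin k → ℝ) × ℝ := fun s => (y, s)
  have hγ : Measurable γ := measurable_const.prodMk measurable_id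
  have hγR : ∀ s ∈ Set.Icc (0 : ℝ) δ', (∀ l, |(γ s).1 l| ≤ R) ∧ |(γ s).2| ≤ R := fun s hs =>
    ⟨hy, abs_le.2 ⟨by linarith [hs.1, hs.2], hs.2.trans hR⟩⟩
  have eP : ∀ s U, movE β α c σ (fun p z x => β / 2 * obsB c p z x) (γ s, U)
      = shiftSlope k β α c U σ τ s := fun s U => by
    rw [shiftSlope, gibR, hamU_eq]
    rfl
  have eW : ∀ s U, varM β α c σ (γ s, U) = shiftVar k β α c U σ τ s := fun s U => by
    rw [varM, shiftVar, eP, gibR, hamU_eq]
    simp only [movE, rootE, groot, obsB, γ, pow_two]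
    rfl
  obtain ⟨hWm, MW, hMW⟩ := var_reg (β := β) (α := α) (c := c) (σ := σ)
    (movTame_half (k := k) (β := β) (c := c) R)
  obtain ⟨MP, _, hMP⟩ := movE_bound β α c σ (movTame_half (k := k) (β := β) (c := c) R)
  have hPi : ∀ s ∈ Set.Icc (0 : ℝ) δ',
      Integrable (fun U => movE β α c σ (fun p z x => β / 2 * obsB c p z x) (γ s, U)) m :=
    fun s hs => ((int_mov hm (movE_meas β α c σ (movTame_half R).1) hMP).2 _ (hγR s hs).1
      (hγR s hs).2).1
  have hWi : ∀ s ∈ Set.Icc (0 : ℝ) δ', Integrable (fun U => varM β α c σ (γ s, U)) m :=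
    fun s hs => ((int_mov hm hWm hMW).2 _ (hγR s hs).1 (hγR s hs).2).1
  obtain ⟨hWs, hS⟩ := var_int hm hWm hMW hγ hγR
    (S := β * N / P157.Rsb.mass k) fun U hU => by
      change ∫ s in Set.Icc 0 δ', varM β α c σ (γ s, U) ≤ _
      simp only [eW]
      have h := int_shiftVar_le (k := k) β α c U σ τ hU hδ'.le
      rwa [abs_of_pos hβ] at h
  have hmain := slice_dev (m := m) (lo := 0) (hi := δ') (h := hh) (θ := θ) (R := β / 2 * N) (E := E)
    (S := β * N / P157.Rsb.mass k)
    (V := fun s U => rootU k β (raise α s) c σ τ U)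
    (P := fun s U => movE β α c σ (fun p z x => β / 2 * obsB c p z x) (γ s, U))
    (W := fun s U => varM β α c σ (γ s, U))
    (F := fun s U => β / 2 * movE β α c σ (devM m β α c σ) (γ s, U))
    hδ'.le hhh hθ (by positivity) (fun s _ => rootU_integrable β (raise α s) c hm σ τ) hPi hWi
    (fun s _ t _ => hm.2.1.mono fun U hU => by
      simp only [eP]
      exact shift_tangent β α c U σ τ hU s t)
    (fun s _ => hm.2.1.mono fun U hU => by
      simp only [eP]
      have h := abs_shiftSlope_le (k := k) β α c U σ τ hU s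
      rwa [abs_of_pos hβ] at h)
    (fun s hs => hE s hs.1 hs.2)
    (fun s U => mul_nonneg (by positivity) (movE_nonneg (fun _ _ _ => abs_nonneg _) _))
    (fun s hs => hm.2.1.mono fun U hU => by
      have hdev := shift_dev (k := k) β α c U σ τ s hθ (meanB m β α c σ (γ s))
      rw [abs_of_pos hβ] at hdev
      have hp : ∫ V, movE β α c σ (fun p z x => β / 2 * obsB c p z x) (γ s, V) ∂m
          = β / 2 * meanB m β α c σ (γ s) := by
        rw [meanB, ← integral_const_mul]
        refine integral_congr_ae (ae_of_all _ fun V => ?_)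
        simp only [movE, rootE, groot, P157.Rsb.cnd_const_mul]
      have eM : gibR β (raise α s) c U k σ τ (fun x => |topSq c U x - meanB m β α c σ (γ s)|)
          = movE β α c σ (devM m β α c σ) (γ s, U) := by
        rw [gibR, hamU_eq]
        rfl
      rw [eM] at hdev
      rw [hp, eW, eP]
      exact hdev)
    hWs hS
  rw [sub_zero] at hmain
  refine le_trans (le_of_eq ?_) hmain
  rw [← integral_const_mul]
  refine integral_congr_ae (ae_of_all _ fun s => ?_)
  simp only [flucM, γ]
  rw [integral_const_mul]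

end Vale.Agent.P166.Rsb.Syn
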