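import Vale.Agent.P157.Rsb.SyncTools
import Vale.Agent.P166.Rsb.Sync.Box

/-!
# P166: overlaps and mass inside the last block are deterministic on average

`sync : ConcStmt → SyncStmt` (module D).
-/

open MeasureTheory ProbabilityTheory Real Finset
open Vale.Agent.P157.Rsb (lift boxAvg boxAvg_eq cnd_nonneg pairCnd)
open Vale.Agent.P157.Rsb.Lf (boxP_slice_le)
open Vale.Agent.P157.Rsb (boxP boxSet boxP_facts)

namespace Vale.Agent.P166.Rsb.Syn

variable {d N k : ℕ} {m : Measure (Fin N → Fin N → ℝ)} {β : ℝ} {α : Fin (d + 1) → ℝ}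
  {c : Fin N → Fin (d + 1)} {σ : ℕ → ℝ}

theorem excessM_reg (hm : IsHaarOrth m) (R : ℝ) (a : Fin k) :
    Measurable (excessM m β α c σ R a) ∧ ∃ M,
      ∀ q : (Fin k → ℝ) × ℝ, (∀ l, |q.1 l| ≤ R) → |q.2| ≤ R → |excessM m β α c σ R a q| ≤ M := by
  obtain ⟨M, _, hM⟩ := movE_bound β α c σ (movTame_devL (β := β) (α := α) (c := c) (σ := σ) hm R a)
  obtain ⟨M', hM0, hM'⟩ := movE_bound β α c σ
    (movTame_devM (k := k) (β := β) (α := α) (c := c) (σ := σ) hm R)
  have hmeas : Measurable (excess m β α c σ R a) :=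
    measurable_const.max ((movE_meas β α c σ (movTame_devL hm R a).1).sub
      ((movE_meas β α c σ (movTame_devM hm R).1).const_mul R))
  have hb : ∀ p, MovOK R p → |excess m β α c σ R a p| ≤ M + |R| * M' := fun p hp => by
    unfold excess
    rw [abs_of_nonneg (le_max_left _ _)]
    have h1 := abs_le.1 (hM p hp)
    have h2 : |R * movE β α c σ (devM m β α c σ) p| ≤ |R| * M' := by
      rw [abs_mul]
      exact mul_le_mul_of_nonneg_left (hM' p hp) (abs_nonneg R)
    rw [abs_le] at h2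
    refine max_le ?_ (by linarith)
    linarith
  have h := int_mov hm hmeas hb
  exact ⟨h.1, _, fun q hy hh => (h.2 q hy hh).2⟩

theorem flucM_reg (hm : IsHaarOrth m) (R : ℝ) :
    Measurable (flucM (k := k) m β α c σ) ∧ ∃ M,
      ∀ q : (Fin k → ℝ) × ℝ, (∀ l, |q.1 l| ≤ R) → |q.2| ≤ R → |flucM m β α c σ q| ≤ M := by
  obtain ⟨M', _, hM'⟩ := movE_bound β α c σ
    (movTame_devM (k := k) (β := β) (α := α) (c := c) (σ := σ) hm R)
  have h := int_mov hm (movE_meas β α c σ (movTame_devM hm R).1) hM'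
  exact ⟨h.1, M', fun q hy hh => (h.2 q hy hh).2⟩

theorem flucL_le (hm : IsHaarOrth m) (R : ℝ) (a : Fin k) (q : (Fin k → ℝ) × ℝ)
    (hy : ∀ l, |q.1 l| ≤ R) (hh : |q.2| ≤ R) :
    flucL m β α c σ a q ≤ excessM m β α c σ R a q + R * flucM m β α c σ q := by
  have := hm.1
  obtain ⟨M, _, hM⟩ := movE_bound β α c σ (movTame_devL (β := β) (α := α) (c := c) (σ := σ) hm R a)
  obtain ⟨M', _, hM'⟩ := movE_bound β α c σ
    (movTame_devM (k := k) (β := β) (α := α) (c := c) (σ := σ) hm R)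
  have hi := ((int_mov hm (movE_meas β α c σ (movTame_devL hm R a).1) hM).2 q hy hh).1
  have hi' := ((int_mov hm (movE_meas β α c σ (movTame_devM hm R).1) hM').2 q hy hh).1
  have he : Integrable (fun U => excess m β α c σ R a (q, U)) m :=
    (integrable_const (0 : ℝ)).sup (hi.sub (hi'.const_mul R))
  have h := integral_mono hi (he.add (hi'.const_mul R)) fun U => by
    simp only [Pi.add_apply, excess]
    linarith [le_max_right (0 : ℝ)
      (movE β α c σ (devL m β α c σ a) (q, U) - R * movE β α c σ (devM m β α c σ) (q, U))]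
  rw [integral_add' he (hi'.const_mul R), integral_const_mul] at h
  exact h

/-- The averaged error at fixed data. -/
theorem pertAvg_le (hm : IsHaarOrth m) (hN : 1 ≤ N) {η δ δ' R hh E : ℝ} (hη : 0 < η) (hδ : 0 < δ)
    (hδ' : 0 < δ') (hR : η + δ ≤ R) (hR' : δ' ≤ R) (hhh : 0 < hh) (hβ : 0 < β)
    (hE : ∀ h, 0 ≤ h → h ≤ δ' → ∀ τ : ℕ → ℝ, (∀ l, |τ l| ≤ R) →
      ∫ U, |rootU k β (raise α h) c σ τ U - ∫ V, rootU k β (raise α h) c σ τ V ∂m| ∂m ≤ E) :
    pertAvg k η δ δ' (fun τ h => topErr m k β (raise α h) c σ τ)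
      ≤ 8 / √((k : ℝ) + 1) + 3 / 2 * √((k : ℝ) + 1) * ((k : ℝ) + 1) / (η * √N)
        + 2 / η * k * ((√N / 2 + 3 * E / hh
            + (2 * R * N * ((k : ℝ) + 1) / (2 * √N) + 8 * (R * N) * hh) / δ) / N)
        + (2 / η * k * R + (2 * (k : ℝ) + 1)) * ((√N / 2 + 3 * E / hh
            + (β * N * ((k : ℝ) + 1) / (2 * √N) + 8 * (β / 2 * N) * hh) / δ') * (2 / β) / N) := by
  have hN0 : (0 : ℝ) < N := Nat.cast_pos.2 hN
  have hR0 : 0 ≤ R := by linarith
  set θ := √(N : ℝ)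
  have hθ : 0 < θ := Real.sqrt_pos.2 hN0
  have hmass : ∀ x : ℝ, x / P157.Rsb.mass k = x * ((k : ℝ) + 1) := fun x => by
    rw [P157.Rsb.mass]; field_simp
  set cL := θ / 2 + 3 * E / hh + (2 * R * N * ((k : ℝ) + 1) / (2 * θ) + 8 * (R * N) * hh) / δ
  set cM := (θ / 2 + 3 * E / hh + (β * N * ((k : ℝ) + 1) / (2 * θ) + 8 * (β / 2 * N) * hh) / δ')
    * (2 / β)
  set C0 := 8 / √((k : ℝ) + 1) + 3 / 2 * √((k : ℝ) + 1) * ((k : ℝ) + 1) / (η * √(N : ℝ))
  set w := 2 / η * k * R + (2 * (k : ℝ) + 1)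
  set P := boxP (fun _ : Fin k => η) δ
  obtain ⟨hP, hbox⟩ := boxP_facts (fun _ : Fin k => η) hδ
  set J := Set.Icc (0 : ℝ) δ'
  have hJ : IsFiniteMeasure (volume.restrict J) := isFiniteMeasure_restrict.2 measure_Icc_lt_top.ne
  have hin : ∀ y ∈ boxSet (fun _ : Fin k => η) δ, (∀ l, η ≤ y l ∧ y l ≤ η + δ) ∧ ∀ l, |y l| ≤ R :=
    fun y hy => ⟨fun l => hy l trivial,
      fun l => abs_le.2 ⟨by linarith [(hy l trivial).1], by linarith [(hy l trivial).2]⟩⟩
  have hhR : ∀ h ∈ J, |h| ≤ R := fun h hh => abs_le.2 ⟨by linarith [hh.1], hh.2.trans hR'⟩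
  -- the dominating function
  set G : ℝ × (Fin k → ℝ) → ℝ := fun p =>
    2 / η * (∑ a : Fin k, excessM m β α c σ R a (p.2, p.1)) + w * flucM m β α c σ (p.2, p.1)
  have hswap : Measurable fun p : ℝ × (Fin k → ℝ) => (p.2, p.1) := measurable_swap
  have hGM := flucM_reg (k := k) (β := β) (α := α) (c := c) (σ := σ) hm R
  have hGL := fun a => excessM_reg (β := β) (α := α) (c := c) (σ := σ) hm R (k := k) a
  choose ME hME using fun a => (hGL a).2
  obtain ⟨MM, hMM⟩ := hGM.2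
  have hae : ∀ᵐ p ∂(volume.restrict J).prod P, p.1 ∈ J ∧ p.2 ∈ boxSet (fun _ : Fin k => η) δ := by
    filter_upwards [Measure.quasiMeasurePreserving_fst.ae (ae_restrict_mem measurableSet_Icc),
      Measure.quasiMeasurePreserving_snd.ae hbox] with p h1 h2 using ⟨h1, h2⟩
  have hE1 : ∀ a, Integrable (fun p : ℝ × (Fin k → ℝ) => excessM m β α c σ R a (p.2, p.1))
      ((volume.restrict J).prod P) := fun a =>
    Integrable.of_bound ((hGL a).1.comp hswap).aestronglyMeasurable (ME a)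
      (hae.mono fun p hp => (Real.norm_eq_abs _).trans_le (hME a _ (hin _ hp.2).2 (hhR _ hp.1)))
  have hM1 : Integrable (fun p : ℝ × (Fin k → ℝ) => flucM m β α c σ (p.2, p.1))
      ((volume.restrict J).prod P) :=
    Integrable.of_bound (hGM.1.comp hswap).aestronglyMeasurable MM
      (hae.mono fun p hp => (Real.norm_eq_abs _).trans_le (hMM _ (hin _ hp.2).2 (hhR _ hp.1)))
  have hGi : Integrable G ((volume.restrict J).prod P) :=
    ((integrable_finsetSum _ fun a _ => hE1 a).const_mul _).add (hM1.const_mul w)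
  have hdom : Integrable (fun p => C0 + G p / N) ((volume.restrict J).prod P) :=
    (integrable_const _).add (hGi.div_const _)
  -- the error is below it
  have hle : ∀ h ∈ J, ∀ y ∈ boxSet (fun _ : Fin k => η) δ,
      topErr m k β (raise α h) c σ (lift y) ≤ C0 + G (h, y) / N := fun h hh y hy => by
    obtain ⟨hy1, hy2⟩ := hin y hy
    refine (topErr_le (α := α) (R := R) hm hN hη y h
      (fun l => ⟨(hy1 l).1, (le_abs_self _).trans (hy2 l)⟩) (hhR h hh)).trans
      (add_le_add le_rfl (div_le_div_of_nonneg_right ?_ hN0.le))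
    have h1 := sum_le_sum fun (a : Fin k) (_ : a ∈ Finset.univ) =>
      flucL_le (β := β) (α := α) (c := c) (σ := σ) hm R a (y, h) hy2 (hhR h hh)
    rw [sum_add_distrib, sum_const, card_univ, Fintype.card_fin, nsmul_eq_mul] at h1
    have h2 := mul_le_mul_of_nonneg_left h1 (by positivity : 0 ≤ 2 / η)
    simp only [G, w]
    linarith
  have hnn : ∀ (h : ℝ) (y : Fin k → ℝ), 0 ≤ topErr m k β (raise α h) c σ (lift y) := fun h y => by
    unfold topErr
    refine add_nonneg (mul_nonneg P157.Rsb.mass_pos.le (sum_nonneg fun j _ => ?_)) ?_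
    · refine integral_nonneg fun U => cnd_nonneg (fun z _ => ?_) 0 _
      exact cnd_nonneg (fun _ _ => cnd_nonneg (fun _ _ => abs_nonneg _) _ _) _ _
    · exact integral_nonneg fun U => cnd_nonneg (fun _ _ => abs_nonneg _) 0 _
  -- the box averages
  have hLavg : ∀ a, ∀ h ∈ J, ∫ y, excessM m β α c σ R a (y, h) ∂P ≤ cL := fun a h hh => by
    refine boxP_slice_le (A := ME a) hδ a ((hGL a).1.comp (measurable_id.prodMk measurable_const))
      (fun y hy => hME a _ (hin y hy).2 (hhR h hh)) fun y hy => ?_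
    refine (amp_avg hm hη hδ hR hhh hθ a y (hin y hy).1 h (hhR h hh)
      (hE h hh.1 hh.2)).trans (le_of_eq ?_)
    simp only [cL, hmass]
    field_simp
    ring
  have hMavg : ∀ y ∈ boxSet (fun _ : Fin k => η) δ,
      ∫ h in J, flucM m β α c σ (y, h) ≤ δ' * cM := fun y hy => by
    have hτ : ∀ l, |lift y l| ≤ R := fun l => by
      unfold lift
      split_ifs
      · exact (hin y hy).2 _
      · rw [abs_zero]; exact hR0
    have h1 := shift_avg (α := α) (c := c) (σ := σ) hm hδ' hR' hhh hθ hβ y (hin y hy).2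
      fun h h0 h1 => hE h h0 h1 _ hτ
    refine le_of_mul_le_mul_left (h1.trans (le_of_eq ?_)) (by positivity : 0 < β / 2)
    simp only [cM, hmass]
    field_simp
    ring
  -- averaging
  have hint : ∫ h in J, ∫ y, topErr m k β (raise α h) c σ (lift y) ∂P
      ≤ ∫ h in J, ∫ y, (C0 + G (h, y) / N) ∂P := by
    refine integral_mono_of_nonneg (ae_of_all _ fun h => integral_nonneg fun y => hnn h y)
      hdom.integral_prod_left ?_
    filter_upwards [ae_restrict_mem measurableSet_Icc, hdom.prod_right_ae] with h hh hi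
    exact integral_mono_of_nonneg (ae_of_all _ fun y => hnn h y) hi
      (hbox.mono fun y hy => hle h hh y hy)
  have hGint : ∫ h in J, ∫ y, G (h, y) ∂P ≤ δ' * (2 / η * k * cL + w * cM) := by
    rw [← integral_prod _ hGi]
    simp only [G]
    rw [integral_add ((integrable_finsetSum _ fun a _ => hE1 a).const_mul _) (hM1.const_mul w),
      integral_const_mul, integral_const_mul, integral_finsetSum _ fun a _ => hE1 a]
    have hδr : volume.real J = δ' := by rw [Real.volume_real_Icc_of_le hδ'.le, sub_zero]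
    have hA : ∀ a, ∫ p : ℝ × (Fin k → ℝ), excessM m β α c σ R a (p.2, p.1)
        ∂(volume.restrict J).prod P ≤ δ' * cL := fun a => by
      rw [integral_prod _ (hE1 a)]
      refine (integral_mono_ae (hE1 a).integral_prod_left (integrable_const cL) ?_).trans_eq ?_
      · filter_upwards [ae_restrict_mem measurableSet_Icc] with h hh using hLavg a h hh
      · rw [setIntegral_const, hδr, smul_eq_mul]
    have hB : ∫ p : ℝ × (Fin k → ℝ), flucM m β α c σ (p.2, p.1) ∂(volume.restrict J).prod P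
        ≤ δ' * cM := by
      rw [integral_prod_symm _ hM1]
      refine (integral_mono_ae hM1.integral_prod_right (integrable_const (δ' * cM))
        (hbox.mono fun y hy => hMavg y hy)).trans_eq ?_
      rw [integral_const, probReal_univ, one_smul]
    have h1 := mul_le_mul_of_nonneg_left (sum_le_card_nsmul univ _ (δ' * cL) fun a _ => hA a)
      (by positivity : 0 ≤ 2 / η)
    rw [card_univ, Fintype.card_fin, nsmul_eq_mul] at h1
    have h2 := mul_le_mul_of_nonneg_left hB (by positivity : 0 ≤ w)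
    linarith
  rw [pertAvg, setAverage_eq, Real.volume_real_Icc_of_le hδ'.le, sub_zero, smul_eq_mul,
    inv_mul_le_iff₀ hδ']
  simp only [boxAvg_eq]
  refine hint.trans ?_
  rw [← integral_prod _ hdom, integral_add (integrable_const _) (hGi.div_const _), integral_div,
    integral_prod _ hGi, integral_const]
  have hv : ((volume.restrict J).prod P).real Set.univ = δ' := by
    rw [← Set.univ_prod_univ, measureReal_prod_prod, probReal_univ (μ := P), mul_one,
      measureReal_restrict_apply_univ, Real.volume_real_Icc_of_le hδ'.le, sub_zero]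
  rw [hv, smul_eq_mul]
  refine (add_le_add le_rfl (div_le_div_of_nonneg_right hGint hN0.le)).trans (le_of_eq ?_)
  ring

/-- The choice of constants. -/
theorem arith {η δ δ' β₀ β R : ℝ} (k : ℕ) (hη : 0 < η) (hδ : 0 < δ) (hδ' : 0 < δ') (hβ₀ : 0 < β₀)
    (hβ : β₀ ≤ β) (hβR : β ≤ R) {r N : ℝ} (hr : 0 < r) (hrr : r * r = N) {ε₁ hh : ℝ} (hε₁ : 0 ≤ ε₁)
    (hhh : 0 < hh) :
    8 / √((k : ℝ) + 1) + 3 / 2 * √((k : ℝ) + 1) * ((k : ℝ) + 1) / (η * r)
        + 2 / η * k * ((r / 2 + 3 * (ε₁ * N) / hh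
            + (2 * R * N * ((k : ℝ) + 1) / (2 * r) + 8 * (R * N) * hh) / δ) / N)
        + (2 / η * k * R + (2 * (k : ℝ) + 1)) * ((r / 2 + 3 * (ε₁ * N) / hh
            + (β * N * ((k : ℝ) + 1) / (2 * r) + 8 * (β / 2 * N) * hh) / δ') * (2 / β) / N)
      ≤ 8 / √((k : ℝ) + 1)
        + (3 / 2 * √((k : ℝ) + 1) * ((k : ℝ) + 1) / η + 2 / η * k * (1 / 2 + R * ((k : ℝ) + 1) / δ)
          + (2 / η * k * R + (2 * (k : ℝ) + 1)) * (1 / 2 + R * ((k : ℝ) + 1) / (2 * δ')) * (2 / β₀)) / r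
        + (2 / η * k * 3 + (2 / η * k * R + (2 * (k : ℝ) + 1)) * 3 * (2 / β₀)) * (ε₁ / hh)
        + (2 / η * k * (8 * R / δ)
          + (2 / η * k * R + (2 * (k : ℝ) + 1)) * (8 * (R / 2) / δ') * (2 / β₀)) * hh := by
  have hβ0 : 0 < β := hβ₀.trans_le hβ
  have hR0 : 0 < R := hβ0.trans_le hβR
  subst hrr
  have eL : (r / 2 + 3 * (ε₁ * (r * r)) / hh
      + (2 * R * (r * r) * ((k : ℝ) + 1) / (2 * r) + 8 * (R * (r * r)) * hh) / δ) / (r * r)
      = (1 / 2 + R * ((k : ℝ) + 1) / δ) / r + 3 * ε₁ / hh + 8 * R / δ * hh := by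
    field_simp
    ring
  have eM : (r / 2 + 3 * (ε₁ * (r * r)) / hh
      + (β * (r * r) * ((k : ℝ) + 1) / (2 * r) + 8 * (β / 2 * (r * r)) * hh) / δ') * (2 / β) / (r * r)
      = ((1 / 2 + β * ((k : ℝ) + 1) / (2 * δ')) / r + 3 * ε₁ / hh + 8 * (β / 2) / δ' * hh)
        * (2 / β) := by
    field_simp
    ring
  rw [eL, eM]
  have hM : ((1 / 2 + β * ((k : ℝ) + 1) / (2 * δ')) / r + 3 * ε₁ / hh + 8 * (β / 2) / δ' * hh) * (2 / β)
      ≤ ((1 / 2 + R * ((k : ℝ) + 1) / (2 * δ')) / r + 3 * ε₁ / hh + 8 * (R / 2) / δ' * hh)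
        * (2 / β₀) := by
    refine mul_le_mul ?_ (div_le_div_of_nonneg_left zero_le_two hβ₀ hβ) (by positivity) (by positivity)
    gcongr
  refine (add_le_add le_rfl (mul_le_mul_of_nonneg_left hM (by positivity))).trans (le_of_eq ?_)
  ring

end Vale.Agent.P166.Rsb.Syn

namespace Vale.Agent.P166.Rsb

open Syn

/-- Module D. -/
theorem sync (hB : ConcStmt) : SyncStmt := by
  refine ⟨8, by norm_num, fun d A k η δ δ' β₀ B ε hη hδ hδ' hβ₀ hε => ?_⟩
  set R := |B| + η + δ + δ' + 1 with hRdef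
  have hR1 : 1 ≤ R := by linarith [abs_nonneg B]
  have hR0 : 0 < R := zero_lt_one.trans_le hR1
  set K := (k : ℝ) + 1
  set w := 2 / η * k * R + (2 * (k : ℝ) + 1)
  set E1 := 2 / η * k * 3 + w * 3 * (2 / β₀)
  set E2 := 2 / η * k * (8 * R / δ) + w * (8 * (R / 2) / δ') * (2 / β₀)
  set D := 3 / 2 * √K * K / η + 2 / η * k * (1 / 2 + R * K / δ)
    + w * (1 / 2 + R * K / (2 * δ')) * (2 / β₀)
  have hw : 0 ≤ w := by positivity
  have hE1 : 0 ≤ E1 := by positivity
  have hE2 : 0 ≤ E2 := by positivity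
  have hD : 0 ≤ D := by positivity
  set hh := ε / (3 * (E2 + 1))
  have hhh : 0 < hh := by positivity
  set ε₁ := hh * ε / (3 * (E1 + 1))
  have hε₁ : 0 < ε₁ := by positivity
  obtain ⟨θ, hθ, N₁, hconc⟩ := hB d A k R ε₁ hε₁
  refine ⟨θ, hθ, max N₁ (max 1 ⌈(3 * (D + 1) / ε) ^ 2⌉₊),
    fun N hN c hc m hm β hβ hβB σ hσ => ?_⟩
  have hN1 : N₁ ≤ N := (le_max_left _ _).trans hN
  have hN2 : 1 ≤ N := ((le_max_left _ _).trans (le_max_right _ _)).trans hN
  have hN3 : (3 * (D + 1) / ε) ^ 2 ≤ (N : ℝ) := (Nat.le_ceil _).trans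
    (Nat.cast_le.2 (((le_max_right _ _).trans (le_max_right _ _)).trans hN))
  have hN0 : (0 : ℝ) < N := Nat.cast_pos.2 hN2
  have hβ0 : 0 < β := hβ₀.trans_le hβ
  have hβR : β ≤ R := by linarith [le_abs_self B]
  have hE : ∀ h, 0 ≤ h → h ≤ δ' → ∀ τ : ℕ → ℝ, (∀ l, |τ l| ≤ R) →
      ∫ U, |rootU k β (raise A.a h) c σ τ U - ∫ V, rootU k β (raise A.a h) c σ τ V ∂m| ∂m
        ≤ ε₁ * N := fun h h0 h1 τ hτ => by
    have hh' := hconc N hN1 c hc m hm β h (by rw [abs_of_pos hβ0]; exact hβR) h0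
      (by linarith [abs_nonneg B]) σ τ (fun l => (hσ l).trans (by linarith [le_abs_self B])) hτ
    refine le_trans (le_of_eq ?_) hh'
    simp only [freeU, mul_div_cancel₀ _ hN0.ne']
  refine ((pertAvg_le hm hN2 hη hδ hδ' (R := R) (hh := hh) (E := ε₁ * N) (by linarith [abs_nonneg B])
    (by linarith [abs_nonneg B]) hhh hβ0 hE).trans
      (arith k hη hδ hδ' hβ₀ hβ hβR (Real.sqrt_pos.2 hN0) (Real.mul_self_sqrt hN0.le) hε₁.le hhh)).trans ?_
  change 8 / √((k : ℝ) + 1) + D / √(N : ℝ) + E1 * (ε₁ / hh) + E2 * hh ≤ _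
  have h1 : E1 * (ε₁ / hh) ≤ ε / 3 := by
    have he : ε₁ / hh = ε / (3 * (E1 + 1)) := by simp only [ε₁]; field_simp
    rw [he, mul_div_assoc', div_le_iff₀ (by positivity)]
    nlinarith
  have h2 : E2 * hh ≤ ε / 3 := by
    simp only [hh]
    rw [mul_div_assoc', div_le_iff₀ (by positivity)]
    nlinarith
  have h3 : D / √(N : ℝ) ≤ ε / 3 := by
    have hr' : 3 * (D + 1) / ε ≤ √(N : ℝ) := Real.le_sqrt_of_sq_le hN3
    rw [div_le_iff₀ hε] at hr'
    rw [div_le_iff₀ (Real.sqrt_pos.2 hN0)]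
    linarith
  linarith

end Vale.Agent.P166.Rsb
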