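import Vale.Agent.P157.Rsb.SyncCov
import Vale.Agent.P166.Rsb.FieldDeriv

/-!
# P166: the covariance of a group of coordinates at a branch level

The coordinates `.inr i` share one amplitude on each level. Integration by parts in the field of level
`j + 1`, given the levels up to `j`, bounds their covariance by the increment of their mean square.
-/

open MeasureTheory ProbabilityTheory Real Finset

namespace Vale.Agent.P166.Rsb.Syn

open Vale.Agent.P157.Rsb (stdG cnd mass lev lev_nonneg lev_pos mass_pos Size LinB Tame gaussSize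
  cnd_ibp cnd_tame cnd_finsum cnd_const_mul cnd_const cnd_add cnd_sub cnd_mono cnd_nonneg cnd_sq_le
  cnd_tower cnd_pull cnd_const_fun cndDer cndDer_self_ge)
open Vale.Agent.P157.Rsb.Lf (sqn sqn_nonneg mat_cs sqn_outer triple_le le_of_quadratic)

variable {κ X : Type} [Fintype κ] [MeasurableSpace X] {n k : ℕ}

section

variable (μ : Measure X) [IsProbabilityMeasure μ] (D : FData (κ ⊕ Fin n) X) (s : ℕ → κ ⊕ Fin n → ℝ)

/-- The mean of a coordinate of the group. -/
noncomputable def bmv (l : ℕ) (i : Fin n) (z : Fin k → κ ⊕ Fin n → ℝ) : ℝ := gmv μ D s l (.inr i) z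

/-- The square of the mean vector of the group. -/
noncomputable def msq (l : ℕ) (z : Fin k → κ ⊕ Fin n → ℝ) : ℝ := ∑ i, bmv μ D s l i z ^ 2

/-- The second moment at a level. -/
noncomputable def mom2 (j : ℕ) (z : Fin k → κ ⊕ Fin n → ℝ) (b i : Fin n) : ℝ :=
  cnd (stdG (κ ⊕ Fin n)) μ (gham D s) (fun _ x => D.v x (.inr b) * D.v x (.inr i)) j z

/-- The covariance at a level. -/
noncomputable def cov (j : ℕ) (z : Fin k → κ ⊕ Fin n → ℝ) (b i : Fin n) : ℝ :=
  mom2 μ D s j z b i - bmv μ D s j b z * bmv μ D s j i z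

/-- The derivative matrix at a level. -/
noncomputable def xmat (j : ℕ) (z : Fin k → κ ⊕ Fin n → ℝ) (b i : Fin n) : ℝ :=
  mom2 μ D s j z b i
    - mass k * ∑ l ∈ Icc (j + 1) k,
        cnd (stdG (κ ⊕ Fin n)) μ (gham D s) (fun z _ => bmv μ D s l b z * bmv μ D s l i z) j z
    - lev k (j + 1) * (bmv μ D s j b z * bmv μ D s j i z)

theorem tame_w (i : Fin n) :
    Tame (gaussSize (κ ⊕ Fin n)) fun (_ : Fin k → κ ⊕ Fin n → ℝ) x => D.v x (.inr i) :=
  tame_v D _

theorem tame_cst (r : ℝ) :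
    Tame (gaussSize (κ ⊕ Fin n)) fun (_ : Fin k → κ ⊕ Fin n → ℝ) (_ : X) => r :=
  Tame.of_bdd measurable_const (B := |r|) fun _ _ => le_rfl

theorem tame_bmv (l : ℕ) (i : Fin n) :
    Tame (gaussSize (κ ⊕ Fin n)) fun (z : Fin k → κ ⊕ Fin n → ℝ) (_ : X) => bmv μ D s l i z :=
  tame_gmv μ D s l _

theorem tame_msq (l : ℕ) :
    Tame (gaussSize (κ ⊕ Fin n)) fun (z : Fin k → κ ⊕ Fin n → ℝ) (_ : X) => msq μ D s l z :=
  Tame.sum univ fun i _ => tame_gmv_sq μ D s l (.inr i)

/-- The squared length of the group. -/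
noncomputable def bsq (x : X) : ℝ := ∑ i, D.v x (.inr i) ^ 2

theorem tame_bsq :
    Tame (gaussSize (κ ⊕ Fin n)) fun (_ : Fin k → κ ⊕ Fin n → ℝ) x => bsq D x :=
  Tame.sum univ fun _ _ => tame_v_sq D _

theorem msq_nonneg (l : ℕ) (z : Fin k → κ ⊕ Fin n → ℝ) : 0 ≤ msq μ D s l z :=
  sum_nonneg fun _ _ => sq_nonneg _

theorem msq_le {j l : ℕ} (hjl : j ≤ l) (z : Fin k → κ ⊕ Fin n → ℝ) :
    msq μ D s j z ≤ cnd (stdG (κ ⊕ Fin n)) μ (gham D s) (fun z _ => msq μ D s l z) j z := by
  simp only [msq, bmv]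
  rw [cnd_finsum (gham_linB D s) _ fun i _ => tame_gmv_sq μ D s l (.inr i)]
  exact sum_le_sum fun i _ => gmv_sq_le μ D s _ hjl z

variable {P : ℝ}

theorem msq_le_bd (hP : ∀ x, bsq D x ≤ P) (j : ℕ) (z : Fin k → κ ⊕ Fin n → ℝ) :
    msq μ D s j z ≤ P := by
  have hH := gham_linB (k := k) D s
  refine (sum_le_sum fun i _ => cnd_sq_le hH (tame_w D i) j z).trans ?_
  rw [← cnd_finsum hH _ fun i _ => tame_v_sq D (.inr i)]
  refine (cnd_mono hH (tame_bsq D) (tame_cst P) (fun _ x => hP x) j z).trans ?_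
  rw [cnd_const hH]

/-- Expectation of a bilinear form in the centred group. -/
theorem cnd_centered (j : ℕ) (z : Fin k → κ ⊕ Fin n → ℝ) (A : Fin n → Fin n → ℝ) :
    cnd (stdG (κ ⊕ Fin n)) μ (gham D s) (fun _ x => ∑ b, ∑ i, A b i *
        ((D.v x (.inr b) - bmv μ D s j b z) * (D.v x (.inr i) - bmv μ D s j i z))) j z
      = ∑ b, ∑ i, A b i * cov μ D s j z b i := by
  have hH := gham_linB (k := k) D s
  have ht : ∀ b, Tame (gaussSize (κ ⊕ Fin n)) fun (_ : Fin k → κ ⊕ Fin n → ℝ) x =>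
      D.v x (.inr b) - bmv μ D s j b z := fun b => (tame_w D b).sub (tame_cst _)
  rw [cnd_finsum hH _ fun b _ => Tame.sum univ fun i _ => ((ht b).mul (ht i)).const_mul _]
  refine sum_congr rfl fun b _ => ?_
  rw [cnd_finsum hH _ fun i _ => ((ht b).mul (ht i)).const_mul _]
  refine sum_congr rfl fun i _ => ?_
  rw [cnd_const_mul]
  congr 1
  have e : (fun (_ : Fin k → κ ⊕ Fin n → ℝ) x =>
      (D.v x (.inr b) - bmv μ D s j b z) * (D.v x (.inr i) - bmv μ D s j i z))
      = fun _ x => (D.v x (.inr b) * D.v x (.inr i) - bmv μ D s j b z * D.v x (.inr i))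
          - (bmv μ D s j i z * D.v x (.inr b) - bmv μ D s j b z * bmv μ D s j i z) :=
    funext₂ fun _ x => by ring
  rw [e, cnd_sub hH (((tame_w D b).mul (tame_w D i)).sub ((tame_w D i).const_mul _))
      (((tame_w D b).const_mul _).sub (tame_cst _)),
    cnd_sub hH ((tame_w D b).mul (tame_w D i)) ((tame_w D i).const_mul _),
    cnd_sub hH ((tame_w D b).const_mul _) (tame_cst _), cnd_const_mul, cnd_const_mul, cnd_const hH]
  simp only [cov, mom2, bmv, gmv]
  ring

theorem quad_expand (u : Fin n → ℝ) (l : ℕ) (z : Fin k → κ ⊕ Fin n → ℝ) :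
    cnd (stdG (κ ⊕ Fin n)) μ (gham D s) (fun _ x => ∑ b, u b * D.v x (.inr b)) l z
      = ∑ b, u b * bmv μ D s l b z := by
  rw [cnd_finsum (gham_linB D s) _ fun b _ => (tame_w D b).const_mul _]
  exact sum_congr rfl fun b _ => cnd_const_mul _ _ _

/-- The derivative matrix dominates the covariance. -/
theorem xmat_ge (j : ℕ) (z : Fin k → κ ⊕ Fin n → ℝ) (u : Fin n → ℝ) (hjk : j ≤ k) :
    lev k (j + 1) * ∑ b, ∑ i, u b * u i * cov μ D s j z b i
      ≤ ∑ b, ∑ i, u b * u i * xmat μ D s j z b i := by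
  have hH := gham_linB (k := k) D s
  have hφ : Tame (gaussSize (κ ⊕ Fin n)) fun (_ : Fin k → κ ⊕ Fin n → ℝ) x =>
      ∑ b, u b * D.v x (.inr b) := Tame.sum univ fun b _ => (tame_w D b).const_mul _
  have h := cndDer_self_ge (μ := μ) hH hφ hjk z
  have e1 : cnd (stdG (κ ⊕ Fin n)) μ (gham D s) (fun _ x => (∑ b, u b * D.v x (.inr b)) ^ 2) j z
      = ∑ b, ∑ i, u b * u i * mom2 μ D s j z b i := by
    have e : (fun (_ : Fin k → κ ⊕ Fin n → ℝ) x => (∑ b, u b * D.v x (.inr b)) ^ 2)
        = fun _ x => ∑ b, ∑ i, u b * u i * (D.v x (.inr b) * D.v x (.inr i)) := funext₂ fun _ x => by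
      rw [pow_two, sum_mul_sum]
      exact sum_congr rfl fun b _ => sum_congr rfl fun i _ => by ring
    rw [e, cnd_finsum hH _ fun b _ => Tame.sum univ fun i _ =>
      ((tame_w D b).mul (tame_w D i)).const_mul _]
    refine sum_congr rfl fun b _ => ?_
    rw [cnd_finsum hH _ fun i _ => ((tame_w D b).mul (tame_w D i)).const_mul _]
    exact sum_congr rfl fun i _ => cnd_const_mul _ _ _
  have e2 : ∀ l, cnd (stdG (κ ⊕ Fin n)) μ (gham D s) (fun z _ =>
        cnd (stdG (κ ⊕ Fin n)) μ (gham D s) (fun _ x => ∑ b, u b * D.v x (.inr b)) l z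
          * cnd (stdG (κ ⊕ Fin n)) μ (gham D s) (fun _ x => ∑ b, u b * D.v x (.inr b)) l z) j z
      = ∑ b, ∑ i, u b * u i *
          cnd (stdG (κ ⊕ Fin n)) μ (gham D s) (fun z _ => bmv μ D s l b z * bmv μ D s l i z) j z :=
    fun l => by
    have hm : ∀ b i, Tame (gaussSize (κ ⊕ Fin n)) fun (z : Fin k → κ ⊕ Fin n → ℝ) (_ : X) =>
        bmv μ D s l b z * bmv μ D s l i z := fun b i => (tame_bmv μ D s l b).mul (tame_bmv μ D s l i)
    have e : (fun (z : Fin k → κ ⊕ Fin n → ℝ) (_ : X) =>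
        cnd (stdG (κ ⊕ Fin n)) μ (gham D s) (fun _ x => ∑ b, u b * D.v x (.inr b)) l z
          * cnd (stdG (κ ⊕ Fin n)) μ (gham D s) (fun _ x => ∑ b, u b * D.v x (.inr b)) l z)
        = fun z _ => ∑ b, ∑ i, u b * u i * (bmv μ D s l b z * bmv μ D s l i z) :=
      funext₂ fun z _ => by
        rw [quad_expand μ D s u, sum_mul_sum]
        exact sum_congr rfl fun b _ => sum_congr rfl fun i _ => by ring
    rw [e, cnd_finsum hH _ fun b _ => Tame.sum univ fun i _ => (hm b i).const_mul _]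
    refine sum_congr rfl fun b _ => ?_
    rw [cnd_finsum hH _ fun i _ => (hm b i).const_mul _]
    exact sum_congr rfl fun i _ => cnd_const_mul _ _ _
  have e3 : cnd (stdG (κ ⊕ Fin n)) μ (gham D s) (fun _ x => ∑ b, u b * D.v x (.inr b)) j z ^ 2
      = ∑ b, ∑ i, u b * u i * (bmv μ D s j b z * bmv μ D s j i z) := by
    rw [quad_expand μ D s u, pow_two, sum_mul_sum]
    exact sum_congr rfl fun b _ => sum_congr rfl fun i _ => by ring
  unfold cndDer at h
  simp only [zero_add, ← pow_two, e1, e3] at h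
  simp only [pow_two] at h
  simp only [e2] at h
  simp only [cov, xmat, mul_sub, sum_sub_distrib, mul_sum] at h ⊢
  rw [sum_comm (s := Icc (j + 1) k)] at h
  simp only [sum_comm (s := Icc (j + 1) k), mul_left_comm (lev k (j + 1)),
    mul_left_comm (mass k)] at h ⊢
  linarith

/-- The norm of the covariance is at most the bound on the squared length. -/
theorem cov_le_bd (hP : ∀ x, bsq D x ≤ P) (j : ℕ) (z : Fin k → κ ⊕ Fin n → ℝ) :
    √(sqn (cov μ D s j z)) ≤ P := by
  have hH := gham_linB (k := k) D s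
  set C := cov μ D s j z with hC
  set M' := fun i => bmv μ D s j i z with hM
  have hb : ∀ b i, Tame (gaussSize (κ ⊕ Fin n)) fun (_ : Fin k → κ ⊕ Fin n → ℝ) x =>
      C b i * ((D.v x (.inr b) - M' b) * (D.v x (.inr i) - M' i)) := fun b i =>
    (((tame_w D b).sub (tame_cst _)).mul ((tame_w D i).sub (tame_cst _))).const_mul _
  have hv : Tame (gaussSize (κ ⊕ Fin n)) fun (_ : Fin k → κ ⊕ Fin n → ℝ) x =>
      ∑ i, (D.v x (.inr i) - M' i) ^ 2 :=
    Tame.sum univ fun i _ => (((tame_w D i).sub (tame_cst _)).mul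
      ((tame_w D i).sub (tame_cst _))).congr fun _ _ => (pow_two _).symm
  have h1 : sqn C ≤ √(sqn C) * cnd (stdG (κ ⊕ Fin n)) μ (gham D s)
      (fun _ x => ∑ i, (D.v x (.inr i) - M' i) ^ 2) j z := by
    have e : sqn C = cnd (stdG (κ ⊕ Fin n)) μ (gham D s) (fun _ x => ∑ b, ∑ i,
        C b i * ((D.v x (.inr b) - M' b) * (D.v x (.inr i) - M' i))) j z := by
      rw [cnd_centered μ D s j z C]
      simp only [sqn, pow_two, ← hC]
    conv_lhs => rw [e]
    rw [← cnd_const_mul]
    refine cnd_mono hH (Tame.sum univ fun b _ => Tame.sum univ fun i _ => hb b i) (hv.const_mul _)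
      (fun _ x => ?_) j z
    refine (le_abs_self _).trans ((mat_cs C fun b i => (D.v x (.inr b) - M' b) *
      (D.v x (.inr i) - M' i)).trans (le_of_eq ?_))
    rw [sqn_outer, sqrt_sq (sum_nonneg fun i _ => sq_nonneg _)]
  have h2 : cnd (stdG (κ ⊕ Fin n)) μ (gham D s) (fun _ x => ∑ i, (D.v x (.inr i) - M' i) ^ 2) j z
      ≤ P := by
    have e : (fun (_ : Fin k → κ ⊕ Fin n → ℝ) x => ∑ i, (D.v x (.inr i) - M' i) ^ 2)
        = fun _ x => bsq D x + ((∑ i, M' i ^ 2) - ∑ i, (2 * M' i) * D.v x (.inr i)) :=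
      funext₂ fun _ x => by
        rw [bsq, ← sum_sub_distrib, ← sum_add_distrib]
        exact sum_congr rfl fun i _ => by ring
    rw [e, cnd_add hH (tame_bsq D)
        ((tame_cst _).sub (Tame.sum univ fun i _ => (tame_w D i).const_mul _)),
      cnd_sub hH (tame_cst _) (Tame.sum univ fun i _ => (tame_w D i).const_mul _), cnd_const hH,
      quad_expand μ D s fun i => 2 * M' i]
    have h3 := cnd_mono (μ := μ) hH (tame_bsq D) (tame_cst P) (fun _ x => hP x) j z
    rw [cnd_const hH] at h3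
    have h4 : ∑ i, 2 * M' i * bmv μ D s j i z = 2 * ∑ i, M' i ^ 2 := by
      rw [mul_sum]
      exact sum_congr rfl fun i _ => by simp only [hM]; ring
    have h5 : 0 ≤ ∑ i, M' i ^ 2 := sum_nonneg fun i _ => sq_nonneg _
    linarith
  rcases eq_or_lt_of_le (sqrt_nonneg (sqn C)) with h0 | h0
  · rw [← h0]
    exact (cnd_nonneg (fun _ x => sum_nonneg fun i _ => sq_nonneg _) j z).trans h2
  · refine le_of_mul_le_mul_left ?_ h0
    rw [Real.mul_self_sqrt (sqn_nonneg C)]
    exact h1.trans (mul_le_mul_of_nonneg_left h2 (sqrt_nonneg _))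

end

variable (μ : Measure X) [IsProbabilityMeasure μ] (D : FData (κ ⊕ Fin n) X) (s : ℕ → κ ⊕ Fin n → ℝ)

/-- The derivative matrix is small when the increment is. -/
theorem xmat_le (a : Fin k) {c : ℝ} (hc : 0 < c) (hs : ∀ i, s ((a : ℕ) + 1) (.inr i) = c)
    (z : Fin k → κ ⊕ Fin n → ℝ) :
    √(sqn (xmat μ D s a z))
      ≤ lev k ((a : ℕ) + 1) * (cnd (stdG (κ ⊕ Fin n)) μ (gham D s)
          (fun z _ => msq μ D s ((a : ℕ) + 1) z) a z - msq μ D s a z)
        + √(cnd (stdG (κ ⊕ Fin n)) μ (gham D s)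
          (fun z _ => msq μ D s ((a : ℕ) + 1) z) a z - msq μ D s a z) / c := by
  classical
  set H := gham (k := k) D s with hHdef
  set j := (a : ℕ) with hjdef
  have hH : LinB (gaussSize (κ ⊕ Fin n)) H := gham_linB D s
  have hjk : j < k := a.2
  set m := lev k (j + 1) with hmdef
  set X' := xmat μ D s j z with hXdef
  set M' := fun b => bmv μ D s j b z with hM'
  set μc := fun i => c * m * M' i with hμc
  have hmass : mass k * (((k + 1 - (j + 1) : ℕ)) : ℝ) = 1 - m := by
    rw [hmdef, Nat.cast_sub (by omega)]; unfold mass lev; push_cast; field_simp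
  obtain ⟨B, _, hB⟩ := D.bound
  have I1 : ∀ i b, cnd (stdG (κ ⊕ Fin n)) μ H (fun z x => z a (.inr i) * D.v x (.inr b)) j z
      = c * (X' b i + m * (M' b * M' i)) := fun i b => by
    rw [gcoord_ibp μ D s a (.inr i) (D.v_meas _) (fun x => (hB x).1 (.inr b)) le_rfl z, hs i]
    simp only [hXdef, xmat, mom2, hM', bmv, gmv, ← hHdef, ← hjdef, ← hmdef]
    ring
  have I3 : ∀ i, cnd (stdG (κ ⊕ Fin n)) μ H (fun z _ => z a (.inr i)) j z = μc i := fun i => by
    have h := gcoord_ibp μ D s a (.inr i) (φ := fun _ => (1 : ℝ)) measurable_const (P := 1)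
      (fun _ => by simp) le_rfl z
    simp only [one_mul, mul_one, cnd_const hH, ← hHdef, ← hjdef, gmv] at h
    rw [hs i] at h
    rw [h, sum_congr rfl fun l hl => cnd_tower hH (by have := (mem_Icc.1 hl).1; omega : j ≤ l) z,
      sum_const, Nat.card_Icc, nsmul_eq_mul, ← mul_assoc, hmass]
    simp only [hμc, hM', bmv, gmv, ← hHdef]
    ring
  have I2 : ∀ i l, cnd (stdG (κ ⊕ Fin n)) μ H (fun z _ => z a (.inr i) * z a (.inr l)) j z
      = (if i = l then 1 else 0) + m * c * (c * (X' i l + m * (M' i * M' l))) := fun i l => by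
    have h := cnd_ibp (μ := μ) (H := H) (φ := fun z _ => z a (Sum.inr l))
      (dH := fun _ x => c * D.v x (Sum.inr i)) (dφ := fun _ _ => if i = l then (1 : ℝ) else 0)
      (Sum.inr i : κ ⊕ Fin n) a
      hH (tame_coord a (Sum.inr l : κ ⊕ Fin n)) ((tame_w D i).const_mul c) (tame_cst _)
      (fun z x => by rw [← hs i]; exact gham_upd_deriv D s a (.inr i) z x) (fun z x => by
        by_cases hil : i = l
        · subst hil
          simp only [Function.update_self, if_true]
          exact hasDerivAt_id _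
        · simp only [if_neg hil, Function.update_self,
            Function.update_of_ne (show (Sum.inr l : κ ⊕ Fin n) ≠ .inr i by simpa using Ne.symm hil)]
          exact hasDerivAt_const _ _) le_rfl z
    rw [h, cnd_add hH (tame_cst _) ((tame_coord a (.inr l)).mul ((tame_w D i).const_mul c)),
      cnd_const hH]
    have hup : ∀ r, j + 1 ≤ r → ∀ z', cnd (stdG (κ ⊕ Fin n)) μ H (fun z _ => z a (.inr l)) r z'
        = z' a (.inr l) := fun r hr z' =>
      cnd_const_fun hH (c := fun z : Fin k → κ ⊕ Fin n → ℝ => z a (.inr l))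
        (fun z z' h => congrFun (h a (by omega)) _) z'
    have e : ∀ r ∈ Icc (j + 1) k, cnd (stdG (κ ⊕ Fin n)) μ H (fun z _ =>
        cnd (stdG (κ ⊕ Fin n)) μ H (fun z _ => z a (.inr l)) r z
          * cnd (stdG (κ ⊕ Fin n)) μ H (fun _ x => c * D.v x (.inr i)) r z) j z
        = cnd (stdG (κ ⊕ Fin n)) μ H (fun z x => z a (.inr l) * (c * D.v x (.inr i))) j z :=
      fun r hr => by
      have hr1 := (mem_Icc.1 hr).1
      rw [← cnd_tower (φ := fun (z : Fin k → κ ⊕ Fin n → ℝ) x => z a (.inr l) * (c * D.v x (.inr i)))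
        hH (show j ≤ r by omega)]
      refine congrArg (fun φ => cnd (stdG (κ ⊕ Fin n)) μ H φ j z) (funext₂ fun z' _ => ?_)
      rw [hup r hr1 z', cnd_pull (c := fun z : Fin k → κ ⊕ Fin n → ℝ => z a (.inr l))
        (fun z z' h => congrFun (h a (by omega)) _) z']
    rw [sum_congr rfl e, sum_const, Nat.card_Icc, nsmul_eq_mul, ← mul_assoc, hmass]
    have e2 : cnd (stdG (κ ⊕ Fin n)) μ H (fun z x => z a (.inr l) * (c * D.v x (.inr i))) j z
        = c * (c * (X' i l + m * (M' i * M' l))) := by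
      rw [← I1 l i, ← cnd_const_mul]
      exact congrArg (fun φ => cnd (stdG (κ ⊕ Fin n)) μ H φ j z) (funext₂ fun z x => by ring)
    rw [e2]
    ring
  set F := sqn X'
  set d := cnd (stdG (κ ⊕ Fin n)) μ H (fun z _ => msq μ D s (j + 1) z) j z - msq μ D s j z with hd
  have tmv := tame_bmv (k := k) μ D s (j + 1)
  have tu : ∀ b, Tame (gaussSize (κ ⊕ Fin n)) fun (z : Fin k → κ ⊕ Fin n → ℝ) (_ : X) =>
      bmv μ D s (j + 1) b z - M' b := fun b => (tmv b).sub (tame_cst _)
  have tξ : ∀ i, Tame (gaussSize (κ ⊕ Fin n)) fun (z : Fin k → κ ⊕ Fin n → ℝ) (_ : X) =>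
      z a (.inr i) - μc i := fun i => (tame_coord a (.inr i)).sub (tame_cst _)
  have tv : ∀ b, Tame (gaussSize (κ ⊕ Fin n)) fun (z : Fin k → κ ⊕ Fin n → ℝ) (_ : X) =>
      ∑ i, X' b i * (z a (.inr i) - μc i) := fun b => Tame.sum univ fun i _ => (tξ i).const_mul _
  have htow : ∀ b, cnd (stdG (κ ⊕ Fin n)) μ H (fun z _ => bmv μ D s (j + 1) b z) j z = M' b :=
    fun b => cnd_tower hH (Nat.le_succ j) z
  have Euu : cnd (stdG (κ ⊕ Fin n)) μ H (fun z _ => ∑ b, (bmv μ D s (j + 1) b z - M' b) ^ 2) j z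
      = d := by
    have e : (fun (z : Fin k → κ ⊕ Fin n → ℝ) (_ : X) => ∑ b, (bmv μ D s (j + 1) b z - M' b) ^ 2)
        = fun z' _ => (msq μ D s (j + 1) z' + msq μ D s j z)
          - ∑ b, (2 * M' b) * bmv μ D s (j + 1) b z' := funext₂ fun z _ => by
        simp only [msq, hM']
        rw [← sum_add_distrib, ← sum_sub_distrib]
        exact sum_congr rfl fun b _ => by ring
    rw [e, cnd_sub hH ((tame_msq μ D s (j + 1)).add (tame_cst _))
      (Tame.sum univ fun b _ => (tmv b).const_mul _),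
      cnd_add hH (tame_msq μ D s (j + 1)) (tame_cst _), cnd_const hH,
      cnd_finsum hH _ fun b _ => (tmv b).const_mul _]
    simp only [cnd_const_mul, htow, hd]
    have : ∑ b, 2 * M' b * M' b = 2 * msq μ D s j z := by
      simp only [msq, hM', mul_sum]; exact sum_congr rfl fun b _ => by ring
    linarith
  have Euv : cnd (stdG (κ ⊕ Fin n)) μ H (fun z _ => ∑ b, (bmv μ D s (j + 1) b z - M' b) *
      ∑ i, X' b i * (z a (.inr i) - μc i)) j z = c * F := by
    have hx : ∀ b i, cnd (stdG (κ ⊕ Fin n)) μ H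
        (fun z _ => (bmv μ D s (j + 1) b z - M' b) * (z a (.inr i) - μc i)) j z = c * X' b i :=
      fun b i => by
      have e : (fun (z : Fin k → κ ⊕ Fin n → ℝ) (_ : X) =>
          (bmv μ D s (j + 1) b z - M' b) * (z a (.inr i) - μc i))
          = fun z _ => (z a (.inr i) * bmv μ D s (j + 1) b z - μc i * bmv μ D s (j + 1) b z)
            - (M' b * z a (.inr i) - M' b * μc i) := funext₂ fun z _ => by ring
      rw [e, cnd_sub hH (((tame_coord a (.inr i)).mul (tmv b)).sub ((tmv b).const_mul _))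
          (((tame_coord a (.inr i)).const_mul _).sub (tame_cst _)),
        cnd_sub hH ((tame_coord a (.inr i)).mul (tmv b)) ((tmv b).const_mul _),
        cnd_sub hH ((tame_coord a (.inr i)).const_mul _) (tame_cst _), cnd_const_mul, cnd_const_mul,
        cnd_const hH, I3 i, htow b]
      have e1 : cnd (stdG (κ ⊕ Fin n)) μ H (fun z _ => z a (.inr i) * bmv μ D s (j + 1) b z) j z
          = c * (X' b i + m * (M' b * M' i)) := by
        rw [← I1 i b, ← cnd_tower (φ := fun (z : Fin k → κ ⊕ Fin n → ℝ) x =>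
          z a (.inr i) * D.v x (.inr b)) hH (Nat.le_succ j)]
        refine congrArg (fun φ => cnd (stdG (κ ⊕ Fin n)) μ H φ j z) (funext₂ fun z' _ => ?_)
        exact (cnd_pull (c := fun z : Fin k → κ ⊕ Fin n → ℝ => z a (.inr i))
          (fun z z' h => congrFun (h a (by omega)) _) z').symm
      rw [e1]
      simp only [hμc]
      ring
    simp only [mul_sum]
    rw [cnd_finsum hH _ fun b _ => Tame.sum univ fun i _ => (tu b).mul ((tξ i).const_mul _)]
    simp only [F, sqn, mul_sum]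
    refine sum_congr rfl fun b _ => ?_
    rw [cnd_finsum hH _ fun i _ => (tu b).mul ((tξ i).const_mul _)]
    refine sum_congr rfl fun i _ => ?_
    rw [show c * X' b i ^ 2 = X' b i * (c * X' b i) by ring, ← hx b i, ← cnd_const_mul]
    exact congrArg (fun φ => cnd (stdG (κ ⊕ Fin n)) μ H φ j z) (funext₂ fun z x => by ring)
  have Evv : cnd (stdG (κ ⊕ Fin n)) μ H (fun z _ => ∑ b, (∑ i, X' b i * (z a (.inr i) - μc i)) ^ 2) j z
      = F + m * c ^ 2 * ∑ b, ∑ l, X' b l * ∑ i, X' b i * X' i l := by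
    have hx : ∀ i l, cnd (stdG (κ ⊕ Fin n)) μ H
        (fun z _ => (z a (.inr i) - μc i) * (z a (.inr l) - μc l)) j z
        = (if i = l then 1 else 0) + m * c ^ 2 * X' i l := fun i l => by
      have e : (fun (z : Fin k → κ ⊕ Fin n → ℝ) (_ : X) =>
          (z a (.inr i) - μc i) * (z a (.inr l) - μc l))
          = fun z _ => (z a (.inr i) * z a (.inr l) - μc l * z a (.inr i))
            - (μc i * z a (.inr l) - μc i * μc l) := funext₂ fun z _ => by ring
      rw [e, cnd_sub hH (((tame_coord a (.inr i)).mul (tame_coord a (.inr l))).sub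
          ((tame_coord a (.inr i)).const_mul _)) (((tame_coord a (.inr l)).const_mul _).sub (tame_cst _)),
        cnd_sub hH ((tame_coord a (.inr i)).mul (tame_coord a (.inr l)))
          ((tame_coord a (.inr i)).const_mul _),
        cnd_sub hH ((tame_coord a (.inr l)).const_mul _) (tame_cst _), cnd_const_mul, cnd_const_mul,
        cnd_const hH, I3 i, I3 l, I2 i l]
      simp only [hμc]
      ring
    have e : (fun (z : Fin k → κ ⊕ Fin n → ℝ) (_ : X) => ∑ b, (∑ i, X' b i * (z a (.inr i) - μc i)) ^ 2)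
        = fun z _ => ∑ b, ∑ l, ∑ i, X' b l * X' b i * ((z a (.inr i) - μc i) * (z a (.inr l) - μc l)) :=
      funext₂ fun z _ => sum_congr rfl fun b _ => by
        rw [pow_two, sum_mul_sum]
        exact sum_congr rfl fun l _ => sum_congr rfl fun i _ => by ring
    rw [e, cnd_finsum hH _ fun b _ => Tame.sum univ fun l _ => Tame.sum univ fun i _ =>
      ((tξ i).mul (tξ l)).const_mul _]
    simp only [F, sqn, mul_sum, ← sum_add_distrib]
    refine sum_congr rfl fun b _ => ?_
    rw [cnd_finsum hH _ fun l _ => Tame.sum univ fun i _ => ((tξ i).mul (tξ l)).const_mul _]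
    refine sum_congr rfl fun l _ => ?_
    rw [cnd_finsum hH _ fun i _ => ((tξ i).mul (tξ l)).const_mul _]
    simp only [cnd_const_mul, hx, mul_add, sum_add_distrib, mul_ite, mul_one, mul_zero, sum_ite_eq',
      mem_univ, if_true, pow_two]
    exact congrArg _ (sum_congr rfl fun i _ => by ring)
  set V := F + m * c ^ 2 * ∑ b, ∑ l, X' b l * ∑ i, X' b i * X' i l
  have hdis : (c * F) ^ 2 ≤ d * V := by
    have hq : ∀ t : ℝ, 0 ≤ d * (t * t) + (-2 * (c * F)) * t + V := fun t => by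
      have h0 := cnd_nonneg (γ := stdG (κ ⊕ Fin n)) (μ := μ) (H := H) (φ := fun z _ =>
        ∑ b, (t * (bmv μ D s (j + 1) b z - M' b) - ∑ i, X' b i * (z a (.inr i) - μc i)) ^ 2)
        (fun z _ => sum_nonneg fun b _ => sq_nonneg _) j z
      have e : (fun (z : Fin k → κ ⊕ Fin n → ℝ) (_ : X) =>
          ∑ b, (t * (bmv μ D s (j + 1) b z - M' b) - ∑ i, X' b i * (z a (.inr i) - μc i)) ^ 2)
          = fun z _ => (t ^ 2 * ∑ b, (bmv μ D s (j + 1) b z - M' b) ^ 2
            + (-2 * t) * ∑ b, (bmv μ D s (j + 1) b z - M' b) * ∑ i, X' b i * (z a (.inr i) - μc i))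
            + ∑ b, (∑ i, X' b i * (z a (.inr i) - μc i)) ^ 2 := funext₂ fun z _ => by
        rw [mul_sum, mul_sum, ← sum_add_distrib, ← sum_add_distrib]
        exact sum_congr rfl fun b _ => by ring
      have t1 : Tame (gaussSize (κ ⊕ Fin n)) fun (z : Fin k → κ ⊕ Fin n → ℝ) (_ : X) =>
          ∑ b, (bmv μ D s (j + 1) b z - M' b) ^ 2 :=
        Tame.sum univ fun b _ => ((tu b).mul (tu b)).congr fun _ _ => (pow_two _).symm
      have t2 : Tame (gaussSize (κ ⊕ Fin n)) fun (z : Fin k → κ ⊕ Fin n → ℝ) (_ : X) =>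
          ∑ b, (bmv μ D s (j + 1) b z - M' b) * ∑ i, X' b i * (z a (.inr i) - μc i) :=
        Tame.sum univ fun b _ => (tu b).mul (tv b)
      have t3 : Tame (gaussSize (κ ⊕ Fin n)) fun (z : Fin k → κ ⊕ Fin n → ℝ) (_ : X) =>
          ∑ b, (∑ i, X' b i * (z a (.inr i) - μc i)) ^ 2 :=
        Tame.sum univ fun b _ => ((tv b).mul (tv b)).congr fun _ _ => (pow_two _).symm
      rw [e, cnd_add hH ((t1.const_mul _).add (t2.const_mul _)) t3,
        cnd_add hH (t1.const_mul _) (t2.const_mul _), cnd_const_mul, cnd_const_mul, Euu, Euv, Evv] at h0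
      linarith
    have := discrim_le_zero hq
    rw [discrim] at this
    linarith
  have hd0 : 0 ≤ d := sub_nonneg.2 (msq_le μ D s (Nat.le_succ j) z)
  refine le_of_quadratic (sqrt_nonneg _) hc hd0 (lev_nonneg _) ?_
  rw [sq_sqrt (sqn_nonneg X')]
  refine hdis.trans (mul_le_mul_of_nonneg_left (add_le_add le_rfl ?_) hd0)
  exact mul_le_mul_of_nonneg_left ((le_abs_self _).trans (triple_le X'))
    (mul_nonneg (lev_nonneg _) (sq_nonneg c))

/-- The covariance is small when the increment is. -/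
theorem cov_le {P : ℝ} (hP : ∀ x, bsq D x ≤ P) (a : Fin k) {c : ℝ} (hc : 0 < c)
    (hs : ∀ i, s ((a : ℕ) + 1) (.inr i) = c) (z : Fin k → κ ⊕ Fin n → ℝ) :
    √(sqn (cov μ D s a z))
      ≤ (cnd (stdG (κ ⊕ Fin n)) μ (gham D s) (fun z _ => msq μ D s ((a : ℕ) + 1) z) a z
          - msq μ D s a z) + √P / (lev k ((a : ℕ) + 1) * c) := by
  have hH := gham_linB (k := k) D s
  set m := lev k ((a : ℕ) + 1)
  have hm0 : 0 < m := lev_pos (by omega)
  set d := cnd (stdG (κ ⊕ Fin n)) μ (gham D s) (fun z _ => msq μ D s ((a : ℕ) + 1) z) a z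
    - msq μ D s a z
  have hX : √(sqn (xmat μ D s a z)) ≤ m * d + √d / c := xmat_le μ D s a hc hs z
  set C := cov μ D s a z with hC
  have h1 : m * sqn C ≤ √(sqn C) * √(sqn (xmat μ D s a z)) := by
    have hb : ∀ A : Fin n → Fin n → ℝ, Tame (gaussSize (κ ⊕ Fin n))
        fun (_ : Fin k → κ ⊕ Fin n → ℝ) x => ∑ b, ∑ i, A b i *
          ((D.v x (.inr b) - bmv μ D s a b z) * (D.v x (.inr i) - bmv μ D s a i z)) := fun A =>
      Tame.sum univ fun b _ => Tame.sum univ fun i _ =>
        (((tame_w D b).sub (tame_cst _)).mul ((tame_w D i).sub (tame_cst _))).const_mul _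
    have h2 := cnd_mono (μ := μ) hH ((hb C).const_mul m) (hb (xmat μ D s a z)) (fun _ x => by
      have h := xmat_ge μ D s (a : ℕ) z (fun b => D.v x (.inr b) - bmv μ D s a b z) a.2.le
      rw [← hC] at h
      simp only [mul_comm (C _ _), mul_comm (xmat μ D s a z _ _)]
      exact h) (a : ℕ) z
    rw [cnd_const_mul, cnd_centered μ D s (a : ℕ) z C, cnd_centered μ D s (a : ℕ) z] at h2
    refine le_trans (le_of_eq ?_) (h2.trans ?_)
    · simp only [sqn, pow_two, ← hC]
    · simp only [← hC]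
      refine (le_abs_self _).trans ((mat_cs _ C).trans (le_of_eq (mul_comm _ _)))
  have hd1 : d ≤ P := by
    have h := cnd_mono (μ := μ) hH (tame_msq μ D s ((a : ℕ) + 1)) (tame_cst P)
      (fun z _ => msq_le_bd μ D s hP _ z) (a : ℕ) z
    rw [cnd_const hH] at h
    linarith [msq_nonneg μ D s (a : ℕ) z]
  have hd0 : 0 ≤ d := sub_nonneg.2 (msq_le μ D s (Nat.le_succ _) z)
  rcases eq_or_lt_of_le (sqrt_nonneg (sqn C)) with h0 | h0
  · rw [← h0]; positivity
  · have h3 : m * √(sqn C) ≤ √(sqn (xmat μ D s a z)) := by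
      refine le_of_mul_le_mul_left ?_ h0
      calc √(sqn C) * (m * √(sqn C)) = m * (√(sqn C) * √(sqn C)) := by ring
        _ = m * sqn C := by rw [Real.mul_self_sqrt (sqn_nonneg C)]
        _ ≤ _ := h1
    have h4 : m * √(sqn C) ≤ m * d + √P / c :=
      h3.trans (hX.trans (add_le_add le_rfl (div_le_div_of_nonneg_right (sqrt_le_sqrt hd1) hc.le)))
    refine le_of_mul_le_mul_left (h4.trans (le_of_eq ?_)) hm0
    field_simp

end Vale.Agent.P166.Rsb.Syn
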