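import Vale.Agent.P157.Rsb.SyncRoot
import Vale.Agent.P166.Rsb.Sync.Cov

/-!
# P166: overlaps inside a group of coordinates at a branch level

The overlap of two leaves that branch at level `j` is close to a deterministic number when the
increment of the mean squares, the fluctuation of the field energies and the fluctuation of the
squared length of the group are small.
-/

open MeasureTheory ProbabilityTheory Real Finset

namespace Vale.Agent.P166.Rsb.Syn

open Vale.Agent.P157.Rsb (stdG cnd pairCnd mass lev tail lev_nonneg lev_pos mass_pos Size LinB Tame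
  gaussSize cnd_tame cnd_finsum cnd_const_mul cnd_const cnd_add cnd_sub cnd_mono cnd_nonneg
  cnd_abs_le cnd_tower cnd_measurable_param_at measurable_pairCnd)
open Vale.Agent.P157.Rsb.Lf (sqn sqn_nonneg mat_cs sqn_outer abs_le_half_sq tail_step)

variable {κ X : Type} [Fintype κ] [MeasurableSpace X] {n k : ℕ}
  (μ : Measure X) [IsProbabilityMeasure μ] (D : FData (κ ⊕ Fin n) X) (s : ℕ → κ ⊕ Fin n → ℝ)

/-- The overlap inside the group. -/
noncomputable def dot (x y : X) : ℝ := ∑ i, D.v x (.inr i) * D.v y (.inr i)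

/-- The pairing of the field of level `a + 1` with the group. -/
noncomputable def fobs (a : Fin k) (z : Fin k → κ ⊕ Fin n → ℝ) (x : X) : ℝ :=
  ∑ i, z a (.inr i) * D.v x (.inr i)

theorem tame_fobs (a : Fin k) : Tame (gaussSize (κ ⊕ Fin n)) (fobs D a) :=
  Tame.sum univ fun i _ => (tame_coord a (Sum.inr i : κ ⊕ Fin n)).mul (tame_w D i)

/-- Integration by parts in all coordinates of the group. -/
theorem cnd_fobs (a : Fin k) {c : ℝ} (hs : ∀ i, s ((a : ℕ) + 1) (.inr i) = c) {j : ℕ} (hj : j ≤ a)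
    (z : Fin k → κ ⊕ Fin n → ℝ) :
    cnd (stdG (κ ⊕ Fin n)) μ (gham D s) (fobs D a) j z
      = c * (cnd (stdG (κ ⊕ Fin n)) μ (gham D s) (fun _ x => bsq D x) j z
          - mass k * ∑ l ∈ Icc ((a : ℕ) + 1) k,
              cnd (stdG (κ ⊕ Fin n)) μ (gham D s) (fun z _ => msq μ D s l z) j z) := by
  classical
  have hH := gham_linB (k := k) D s
  obtain ⟨B, _, hB⟩ := D.bound
  unfold fobs bsq msq
  rw [cnd_finsum hH _ fun i _ => (tame_coord a (Sum.inr i : κ ⊕ Fin n)).mul (tame_w D i),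
    sum_congr rfl fun i _ => by
      rw [gcoord_ibp μ D s a (.inr i) (D.v_meas _) (fun x => (hB x).1 (.inr i)) hj z, hs i],
    ← mul_sum, sum_sub_distrib, ← mul_sum, sum_comm,
    cnd_finsum hH _ fun i _ => tame_v_sq D (.inr i)]
  congr 3
  · simp only [pow_two]
  · refine sum_congr rfl fun l _ => ?_
    simp only [bmv]
    rw [cnd_finsum hH _ fun i _ => tame_gmv_sq μ D s l (.inr i)]
    simp only [gmv, pow_two]

theorem meas_dot : Measurable fun p : X × X => dot D p.1 p.2 :=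
  Finset.measurable_sum _ fun _ _ =>
    ((D.v_meas _).comp measurable_fst).mul ((D.v_meas _).comp measurable_snd)

theorem abs_dot_le {P : ℝ} (hP : ∀ x, bsq D x ≤ P) (x y : X) : |dot D x y| ≤ P := by
  have h0 : 0 ≤ P := (sum_nonneg fun i _ => sq_nonneg _).trans (hP x)
  rw [← sq_le_sq₀ (abs_nonneg _) h0, sq_abs, pow_two P]
  exact (sum_mul_sq_le_sq_mul_sq _ _ _).trans
    (mul_le_mul (hP x) (hP y) (sum_nonneg fun i _ => sq_nonneg _) h0)

/-- The expectation of a function of the second leaf is an observable of the first. -/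
theorem tame_inner {F : X → X → ℝ} (hF : Measurable (Function.uncurry F)) {A : ℝ}
    (hA : ∀ x y, |F x y| ≤ A) (j : ℕ) (z : Fin k → κ ⊕ Fin n → ℝ) :
    Tame (gaussSize (κ ⊕ Fin n)) fun (_ : Fin k → κ ⊕ Fin n → ℝ) x =>
      cnd (stdG (κ ⊕ Fin n)) μ (gham D s) (fun _ y => F x y) j z := by
  have hH := gham_linB (k := k) D s
  revert hH
  generalize gham (k := k) D s = H
  intro hH
  have h1 : Measurable fun p : (X × (Fin k → κ ⊕ Fin n → ℝ)) × X => H p.1.2 p.2 :=
    hH.meas.comp ((measurable_snd.comp measurable_fst).prodMk measurable_snd)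
  have h2 : Measurable fun p : (X × (Fin k → κ ⊕ Fin n → ℝ)) × X => F p.1.1 p.2 :=
    hF.comp ((measurable_fst.comp measurable_fst).prodMk measurable_snd)
  have h3 := cnd_measurable_param_at (γ := stdG (κ ⊕ Fin n)) (μ := μ)
    (H := fun _ : X => H) (φ := fun x _ y => F x y) h1 h2 j z
  exact Tame.of_bdd (h3.comp measurable_snd) (B := A) fun _ x =>
    cnd_abs_le (φ := fun _ y => F x y) hH
      ((hF.comp (measurable_prodMk_left (x := x))).comp measurable_snd) (fun _ y => hA x y) j z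

/-- The second moment of the overlap at a branch level. -/
theorem dot_second (j : ℕ) (z : Fin k → κ ⊕ Fin n → ℝ) :
    cnd (stdG (κ ⊕ Fin n)) μ (gham D s) (fun _ x => cnd (stdG (κ ⊕ Fin n)) μ (gham D s)
        (fun _ y => (dot D x y - msq μ D s j z) ^ 2) j z) j z
      = sqn (cov μ D s j z)
        + 2 * ∑ b, ∑ i, cov μ D s j z b i * (bmv μ D s j b z * bmv μ D s j i z) := by
  set M := msq μ D s j z with hM
  have hH := gham_linB (k := k) D s
  have hxy : ∀ b i, Tame (gaussSize (κ ⊕ Fin n)) fun (_ : Fin k → κ ⊕ Fin n → ℝ) x =>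
      D.v x (.inr b) * D.v x (.inr i) := fun b i => (tame_w D b).mul (tame_w D i)
  have hdd : ∀ x : X, Tame (gaussSize (κ ⊕ Fin n)) fun (_ : Fin k → κ ⊕ Fin n → ℝ) y =>
      ∑ b, ∑ i, D.v x (.inr b) * D.v x (.inr i) * (D.v y (.inr b) * D.v y (.inr i)) := fun x =>
    Tame.sum univ fun b _ => Tame.sum univ fun i _ => (hxy b i).const_mul _
  have h1 : ∀ x : X,
      cnd (stdG (κ ⊕ Fin n)) μ (gham D s) (fun _ y => (dot D x y - M) ^ 2) j z
      = (∑ b, ∑ i, D.v x (.inr b) * D.v x (.inr i) * mom2 μ D s j z b i)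
        - (∑ b, 2 * M * bmv μ D s j b z * D.v x (.inr b) - M ^ 2) := fun x => by
    have e : (fun (_ : Fin k → κ ⊕ Fin n → ℝ) y => (dot D x y - M) ^ 2)
        = fun _ y => (∑ b, ∑ i, D.v x (.inr b) * D.v x (.inr i) * (D.v y (.inr b) * D.v y (.inr i)))
          - (∑ b, 2 * M * D.v x (.inr b) * D.v y (.inr b) - M ^ 2) := funext₂ fun _ y => by
      simp only [dot, sub_sq, pow_two (∑ i, D.v x (.inr i) * D.v y (.inr i)), sum_mul_sum]
      rw [show ∑ b, 2 * M * D.v x (.inr b) * D.v y (.inr b)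
          = 2 * (∑ i, D.v x (.inr i) * D.v y (.inr i)) * M by
        rw [mul_sum, sum_mul]; exact sum_congr rfl fun b _ => by ring]
      rw [sum_congr rfl fun b _ => sum_congr rfl fun i _ =>
        show D.v x (.inr b) * D.v y (.inr b) * (D.v x (.inr i) * D.v y (.inr i))
          = D.v x (.inr b) * D.v x (.inr i) * (D.v y (.inr b) * D.v y (.inr i)) by ring]
      ring
    rw [e, cnd_sub hH (hdd x) ((Tame.sum univ fun b _ => (tame_w D b).const_mul _).sub (tame_cst _)),
      cnd_sub hH (Tame.sum univ fun b _ => (tame_w D b).const_mul _) (tame_cst _),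
      cnd_const hH, cnd_finsum hH _ fun b _ => Tame.sum univ fun i _ => (hxy b i).const_mul _,
      cnd_finsum hH _ fun b _ => (tame_w D b).const_mul _]
    congr 1
    · refine sum_congr rfl fun b _ => ?_
      rw [cnd_finsum hH _ fun i _ => (hxy b i).const_mul _]
      exact sum_congr rfl fun i _ => cnd_const_mul _ _ _
    · congr 1
      refine sum_congr rfl fun b _ => ?_
      rw [cnd_const_mul]
      simp only [bmv, gmv]
      ring
  simp only [h1]
  have hmm : ∀ b i, Tame (gaussSize (κ ⊕ Fin n)) fun (_ : Fin k → κ ⊕ Fin n → ℝ) x =>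
      D.v x (.inr b) * D.v x (.inr i) * mom2 μ D s j z b i := fun b i => (hxy b i).mul (tame_cst _)
  rw [cnd_sub hH (Tame.sum univ fun b _ => Tame.sum univ fun i _ => hmm b i)
      ((Tame.sum univ fun b _ => (tame_w D b).const_mul _).sub (tame_cst _)),
    cnd_sub hH (Tame.sum univ fun b _ => (tame_w D b).const_mul _) (tame_cst _), cnd_const hH,
    cnd_finsum hH _ fun b _ => (tame_w D b).const_mul _,
    cnd_finsum hH _ fun b _ => Tame.sum univ fun i _ => hmm b i]
  have e2 : ∀ b, cnd (stdG (κ ⊕ Fin n)) μ (gham D s)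
      (fun _ x => ∑ i, D.v x (.inr b) * D.v x (.inr i) * mom2 μ D s j z b i) j z
      = ∑ i, mom2 μ D s j z b i * mom2 μ D s j z b i := fun b => by
    rw [cnd_finsum hH _ fun i _ => hmm b i]
    refine sum_congr rfl fun i _ => ?_
    rw [show (fun (_ : Fin k → κ ⊕ Fin n → ℝ) x =>
        D.v x (.inr b) * D.v x (.inr i) * mom2 μ D s j z b i)
      = fun _ x => mom2 μ D s j z b i * (D.v x (.inr b) * D.v x (.inr i)) from
        funext₂ fun _ x => mul_comm _ _, cnd_const_mul]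
    rfl
  simp only [e2, cnd_const_mul]
  have e3 : ∑ b, 2 * M * bmv μ D s j b z * bmv μ D s j b z = 2 * M * M := by
    rw [sum_congr rfl fun b _ => show 2 * M * bmv μ D s j b z * bmv μ D s j b z
      = 2 * M * bmv μ D s j b z ^ 2 by ring, ← mul_sum]
    rfl
  have e4 : ∑ b, ∑ i, mom2 μ D s j z b i * mom2 μ D s j z b i = sqn (cov μ D s j z)
      + 2 * ∑ b, ∑ i, cov μ D s j z b i * (bmv μ D s j b z * bmv μ D s j i z) + M ^ 2 := by
    rw [hM, msq, pow_two (∑ i, bmv μ D s j i z ^ 2), sum_mul_sum]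
    simp only [sqn, mul_sum, ← sum_add_distrib]
    exact sum_congr rfl fun b _ => sum_congr rfl fun i _ => by simp only [cov]; ring
  simp only [bmv, gmv] at e3 ⊢
  rw [e4, e3]
  simp only [bmv, gmv]
  ring

/-- The overlap of two leaves at a branch level is close to the mean square. -/
theorem branch_dev {P : ℝ} (hP0 : 0 < P) (hP : ∀ x, bsq D x ≤ P) (a : Fin k) {c : ℝ} (hc : 0 < c)
    (hs : ∀ i, s ((a : ℕ) + 1) (.inr i) = c) {r : ℝ} (hr : 0 < r) (q : ℝ)
    (z : Fin k → κ ⊕ Fin n → ℝ) :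
    pairCnd (stdG (κ ⊕ Fin n)) μ (gham D s) (fun _ x _ y => |dot D x y - q|) a z
      ≤ 3 * r / 2 * ((cnd (stdG (κ ⊕ Fin n)) μ (gham D s)
            (fun z _ => msq μ D s ((a : ℕ) + 1) z) a z - msq μ D s a z)
          + √P / (lev k ((a : ℕ) + 1) * c))
        + P / (2 * r) + |msq μ D s a z - q| := by
  have hH := gham_linB (k := k) D s
  set M := msq μ D s a z with hM
  have hd := meas_dot D
  have hab : Measurable fun p : X × X => |dot D p.1 p.2 - q| :=
    continuous_abs.measurable.comp (hd.sub_const q)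
  have hsq : Measurable fun p : X × X => (dot D p.1 p.2 - M) ^ 2 := (hd.sub_const M).pow_const 2
  have hbd : ∀ (c : ℝ) x y, |dot D x y - c| ≤ P + |c| := fun c x y =>
    (abs_sub _ _).trans (by linarith [abs_dot_le D hP x y])
  have hsb : ∀ x y, |(dot D x y - M) ^ 2| ≤ (P + |M|) ^ 2 := fun x y => by
    rw [abs_pow]; exact pow_le_pow_left₀ (abs_nonneg _) (hbd M x y) 2
  have hI : Tame (gaussSize (κ ⊕ Fin n)) fun (_ : Fin k → κ ⊕ Fin n → ℝ) x =>
      cnd (stdG (κ ⊕ Fin n)) μ (gham D s) (fun _ y => |dot D x y - q|) (a : ℕ) z :=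
    tame_inner μ D s (F := fun x y => |dot D x y - q|) hab
      (fun x y => (abs_abs _).trans_le (hbd q x y)) _ z
  have hQ : Tame (gaussSize (κ ⊕ Fin n)) fun (_ : Fin k → κ ⊕ Fin n → ℝ) x =>
      cnd (stdG (κ ⊕ Fin n)) μ (gham D s) (fun _ y => (dot D x y - M) ^ 2) (a : ℕ) z :=
    tame_inner μ D s (F := fun x y => (dot D x y - M) ^ 2) hsq hsb _ z
  have hrP : 0 < r / P := div_pos hr hP0
  have hpt : ∀ x, cnd (stdG (κ ⊕ Fin n)) μ (gham D s) (fun _ y => |dot D x y - q|) (a : ℕ) z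
      ≤ r / P / 2 * cnd (stdG (κ ⊕ Fin n)) μ (gham D s) (fun _ y => (dot D x y - M) ^ 2) (a : ℕ) z
        + (1 / (2 * (r / P)) + |M - q|) := fun x => by
    have t1 : Tame (gaussSize (κ ⊕ Fin n)) fun (_ : Fin k → κ ⊕ Fin n → ℝ) y => |dot D x y - q| :=
      Tame.of_bdd ((hab.comp (measurable_prodMk_left (x := x))).comp measurable_snd)
        fun _ y => (abs_abs _).trans_le (hbd q x y)
    have t2 : Tame (gaussSize (κ ⊕ Fin n)) fun (_ : Fin k → κ ⊕ Fin n → ℝ) y => (dot D x y - M) ^ 2 :=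
      Tame.of_bdd ((hsq.comp (measurable_prodMk_left (x := x))).comp measurable_snd) fun _ y => hsb x y
    rw [← cnd_const (μ := μ) hH (1 / (2 * (r / P)) + |M - q|) (a : ℕ) z, ← cnd_const_mul,
      ← cnd_add hH (t2.const_mul _) (tame_cst _)]
    refine cnd_mono hH t1 ((t2.const_mul _).add (tame_cst _)) (fun _ y => ?_) _ z
    have h1 := abs_le_half_sq hrP (dot D x y - M)
    linarith [abs_sub_le (dot D x y) M q]
  refine (cnd_mono hH hI ((hQ.const_mul _).add (tame_cst _)) (fun _ x => hpt x) _ z).trans ?_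
  rw [cnd_add hH (hQ.const_mul _) (tame_cst _), cnd_const hH, cnd_const_mul,
    dot_second μ D s (a : ℕ) z]
  have h1 := cov_le_bd μ D s hP (a : ℕ) z
  have h2 := cov_le μ D s hP a hc hs z
  have h3 : sqn (cov μ D s a z) ≤ P * √(sqn (cov μ D s a z)) := by
    conv_lhs => rw [← Real.mul_self_sqrt (sqn_nonneg _)]
    exact mul_le_mul_of_nonneg_right h1 (sqrt_nonneg _)
  have h4 : ∑ b, ∑ i, cov μ D s a z b i * (bmv μ D s a b z * bmv μ D s a i z)
      ≤ P * √(sqn (cov μ D s a z)) := by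
    refine (le_abs_self _).trans ((mat_cs _ fun b i => bmv μ D s a b z * bmv μ D s a i z).trans ?_)
    rw [sqn_outer, sqrt_sq (sum_nonneg fun i _ => sq_nonneg _), mul_comm]
    exact mul_le_mul_of_nonneg_right (msq_le_bd μ D s hP _ z) (sqrt_nonneg _)
  have h5 := mul_le_mul_of_nonneg_left
    (show sqn (cov μ D s a z) + 2 * ∑ b, ∑ i, cov μ D s a z b i * (bmv μ D s a b z * bmv μ D s a i z)
      ≤ 3 * P * ((cnd (stdG (κ ⊕ Fin n)) μ (gham D s)
            (fun z _ => msq μ D s ((a : ℕ) + 1) z) a z - M)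
          + √P / (lev k ((a : ℕ) + 1) * c)) by
      have := mul_le_mul_of_nonneg_left h2 hP0.le
      linarith)
    (by positivity : 0 ≤ r / P / 2)
  have e1 : ∀ E : ℝ, r / P / 2 * (3 * P * E) = 3 * r / 2 * E := fun E => by field_simp
  have e2 : 1 / (2 * (r / P)) = P / (2 * r) := by field_simp
  rw [e1] at h5
  linarith

/-- The weighted tail of the mean squares given the levels up to `j`. -/
noncomputable def condTail (j : ℕ) (z : Fin k → κ ⊕ Fin n → ℝ) : ℝ :=
  mass k * ∑ l ∈ Icc (j + 1) k, cnd (stdG (κ ⊕ Fin n)) μ (gham D s) (fun z _ => msq μ D s l z) j z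

/-- The fluctuation of the pairing with one field. -/
noncomputable def devF (c₀ : ℝ) (a : Fin k) (z : Fin k → κ ⊕ Fin n → ℝ) (x : X) : ℝ :=
  |fobs D a z x - c₀|

/-- The fluctuation of the squared length. -/
noncomputable def devB (p₀ : ℝ) (_ : Fin k → κ ⊕ Fin n → ℝ) (x : X) : ℝ := |bsq D x - p₀|

omit μ in
theorem tame_abs {φ : (Fin k → κ ⊕ Fin n → ℝ) → X → ℝ} (h : Tame (gaussSize (κ ⊕ Fin n)) φ) :
    Tame (gaussSize (κ ⊕ Fin n)) fun z x => |φ z x| := by
  obtain ⟨hm, A, hA, hb⟩ := h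
  exact ⟨continuous_abs.measurable.comp hm, A, hA, fun z x => (abs_abs _).trans_le (hb z x)⟩

theorem tame_devF (c₀ : ℝ) (a : Fin k) : Tame (gaussSize (κ ⊕ Fin n)) (devF D c₀ a) :=
  tame_abs ((tame_fobs D a).sub (tame_cst c₀))

theorem tame_devB (p₀ : ℝ) : Tame (gaussSize (κ ⊕ Fin n)) (devB (k := k) D p₀) :=
  tame_abs ((tame_bsq D).sub (tame_cst p₀))

theorem abs_cnd_le {φ : (Fin k → κ ⊕ Fin n → ℝ) → X → ℝ} (h : Tame (gaussSize (κ ⊕ Fin n)) φ)
    (j : ℕ) (z : Fin k → κ ⊕ Fin n → ℝ) :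
    |cnd (stdG (κ ⊕ Fin n)) μ (gham D s) φ j z|
      ≤ cnd (stdG (κ ⊕ Fin n)) μ (gham D s) (fun z x => |φ z x|) j z := by
  have hH := gham_linB (k := k) D s
  refine abs_le.2 ⟨?_, cnd_mono hH h (tame_abs h) (fun z x => le_abs_self _) j z⟩
  have := cnd_mono (μ := μ) hH ((tame_abs h).const_mul (-1)) h
    (fun z x => by linarith [neg_abs_le (φ z x)]) j z
  rw [cnd_const_mul] at this
  linarith

/-- The tail given the levels up to `a` is close to `T` when energy and squared length are. -/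
theorem condTail_dev (a : Fin k) {c : ℝ} (hc : 0 < c) (hs : ∀ i, s ((a : ℕ) + 1) (.inr i) = c)
    (T p₀ : ℝ) (z : Fin k → κ ⊕ Fin n → ℝ) :
    |condTail μ D s a z - T|
      ≤ c⁻¹ * cnd (stdG (κ ⊕ Fin n)) μ (gham D s) (devF D (c * (p₀ - T)) a) a z
        + cnd (stdG (κ ⊕ Fin n)) μ (gham D s) (devB D p₀) a z := by
  have hH := gham_linB (k := k) D s
  have e1 : cnd (stdG (κ ⊕ Fin n)) μ (gham D s) (fun z x => fobs D a z x - c * (p₀ - T)) a z
      = c * (cnd (stdG (κ ⊕ Fin n)) μ (gham D s) (fun _ x => bsq D x) a z - p₀)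
        - c * (condTail μ D s a z - T) := by
    rw [cnd_sub hH (tame_fobs D a) (tame_cst _), cnd_const hH, cnd_fobs μ D s a hs le_rfl z,
      condTail]
    ring
  have e2 : cnd (stdG (κ ⊕ Fin n)) μ (gham D s) (fun _ x => bsq D x) a z - p₀
      = cnd (stdG (κ ⊕ Fin n)) μ (gham D s) (fun _ x => bsq D x - p₀) a z := by
    rw [cnd_sub hH (tame_bsq D) (tame_cst _), cnd_const hH]
  have h1 := abs_le.1 (abs_cnd_le μ D s ((tame_fobs D a).sub (tame_cst (c * (p₀ - T)))) (a : ℕ) z)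
  have h2 := abs_le.1 (abs_cnd_le μ D s ((tame_bsq (k := k) D).sub (tame_cst p₀)) (a : ℕ) z)
  simp only [← e2] at h2
  rw [e1] at h1
  unfold devF devB
  set A := cnd (stdG (κ ⊕ Fin n)) μ (gham D s) (fun z x => |fobs D a z x - c * (p₀ - T)|) a z
  set B := cnd (stdG (κ ⊕ Fin n)) μ (gham D s) (fun _ x => |bsq D x - p₀|) a z
  have h3 := mul_le_mul_of_nonneg_left h2.1 hc.le
  have h4 := mul_le_mul_of_nonneg_left h2.2 hc.le
  rw [abs_le]
  constructor
  · refine le_of_mul_le_mul_left ?_ hc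
    rw [show c * -(c⁻¹ * A + B) = -(A + c * B) by field_simp]
    linarith
  · refine le_of_mul_le_mul_left ?_ hc
    rw [show c * (c⁻¹ * A + B) = A + c * B by field_simp]
    linarith

/-- The next increment of the mean squares from two conditional tails. -/
theorem inc_eq_tails {j : ℕ} (hj : j < k) (z : Fin k → κ ⊕ Fin n → ℝ) :
    mass k * cnd (stdG (κ ⊕ Fin n)) μ (gham D s) (fun z _ => msq μ D s (j + 1) z) j z
      = condTail μ D s j z
        - cnd (stdG (κ ⊕ Fin n)) μ (gham D s) (fun z _ => condTail μ D s (j + 1) z) j z := by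
  have hH := gham_linB (k := k) D s
  have ht : ∀ l, Tame (gaussSize (κ ⊕ Fin n)) fun z (_ : X) =>
      cnd (stdG (κ ⊕ Fin n)) μ (gham (k := k) D s) (fun z _ => msq μ D s l z) (j + 1) z :=
    fun l => cnd_tame hH (tame_msq μ D s l) (j + 1)
  simp only [condTail]
  rw [cnd_const_mul, cnd_finsum hH _ fun l _ => ht l,
    sum_congr rfl fun l _ => cnd_tower (φ := fun z _ => msq μ D s l z) hH (Nat.le_succ j) z,
    ← mul_sub]
  congr 1
  rw [← add_sum_Ioc_eq_sum_Icc (show j + 1 ≤ k from hj),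
    show Ioc (j + 1) k = Icc (j + 1 + 1) k from Finset.ext fun l => by simp only [mem_Ioc, mem_Icc]; omega]
  ring

/-- The fluctuation at level `j + 1` against the predicted mean; zero beyond the levels. -/
noncomputable def devAt (t : ℕ → ℝ) (p₀ : ℝ) (q : ℕ → ℝ) (j : ℕ) :
    (Fin k → κ ⊕ Fin n → ℝ) → X → ℝ :=
  if h : j < k then devF D (t (j + 1) * (p₀ - tail k q (j + 1))) ⟨j, h⟩ else fun _ _ => 0

theorem tame_devAt (t : ℕ → ℝ) (p₀ : ℝ) (q : ℕ → ℝ) (j : ℕ) :
    Tame (gaussSize (κ ⊕ Fin n)) (devAt (k := k) D t p₀ q j) := by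
  unfold devAt
  split_ifs
  · exact tame_devF D _ _
  · exact tame_cst 0

theorem devAt_nonneg (t : ℕ → ℝ) (p₀ : ℝ) (q : ℕ → ℝ) (j : ℕ) (z : Fin k → κ ⊕ Fin n → ℝ)
    (x : X) : 0 ≤ devAt D t p₀ q j z x := by
  unfold devAt devF
  split_ifs
  · exact abs_nonneg _
  · exact le_rfl

variable {t : ℕ → ℝ} {η : ℝ} (hη : 0 < η) (ht : ∀ l : Fin k, η ≤ t ((l : ℕ) + 1))
  (hs : ∀ (l : Fin k) i, s ((l : ℕ) + 1) (.inr i) = t ((l : ℕ) + 1))

include hη ht hs in
theorem tail_dev (q : ℕ → ℝ) (p₀ : ℝ) {j : ℕ} (hj : j ≤ k) (z : Fin k → κ ⊕ Fin n → ℝ) :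
    |condTail μ D s j z - tail k q (j + 1)|
      ≤ η⁻¹ * cnd (stdG (κ ⊕ Fin n)) μ (gham D s) (devAt D t p₀ q j) j z
        + cnd (stdG (κ ⊕ Fin n)) μ (gham D s) (devB D p₀) j z := by
  rcases lt_or_eq_of_le hj with h | rfl
  · have h0 := condTail_dev μ D s ⟨j, h⟩ (hη.trans_le (ht ⟨j, h⟩)) (hs ⟨j, h⟩) (tail k q (j + 1)) p₀ z
    refine h0.trans ?_
    rw [devAt, dif_pos h]
    exact add_le_add (mul_le_mul_of_nonneg_right (inv_anti₀ hη (ht ⟨j, h⟩))
      (cnd_nonneg (fun z x => abs_nonneg _) _ _)) le_rfl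
  · have e : Icc (j + 1) j = ∅ := Icc_eq_empty (by omega)
    simp only [condTail, tail, e, sum_empty, mul_zero, sub_zero, abs_zero]
    exact add_nonneg (mul_nonneg (inv_nonneg.2 hη.le) (cnd_nonneg (fun z x => devAt_nonneg D _ _ _ _ z x) _ _))
      (cnd_nonneg (fun z x => abs_nonneg _) _ _)

include hη ht hs in
/-- The error at one branch level given the levels up to it. -/
theorem level_err {P : ℝ} (hP0 : 0 < P) (hP : ∀ x, bsq D x ≤ P) {r : ℝ} (hr : 0 < r) (q : ℕ → ℝ)
    (p₀ : ℝ) {j : ℕ} (hj : j < k) (hq : q j ≤ q (j + 1)) (z : Fin k → κ ⊕ Fin n → ℝ) :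
    pairCnd (stdG (κ ⊕ Fin n)) μ (gham D s) (fun _ x _ y => |dot D x y - q j|) j z
      ≤ (3 * r / 2 + 1) * (cnd (stdG (κ ⊕ Fin n)) μ (gham D s)
            (fun z _ => msq μ D s (j + 1) z) j z - msq μ D s j z)
        + ((3 * r / 2) * (((k : ℝ) + 1) * √P / η) + P / (2 * r) + (q (j + 1) - q j))
        + ((k : ℝ) + 1) *
          ((η⁻¹ * cnd (stdG (κ ⊕ Fin n)) μ (gham D s) (devAt D t p₀ q j) j z
              + cnd (stdG (κ ⊕ Fin n)) μ (gham D s) (devB D p₀) j z)
            + (η⁻¹ * cnd (stdG (κ ⊕ Fin n)) μ (gham D s) (devAt D t p₀ q (j + 1)) j z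
              + cnd (stdG (κ ⊕ Fin n)) μ (gham D s) (devB D p₀) j z)) := by
  have hH := gham_linB (k := k) D s
  have hs' : η ≤ t (j + 1) := ht ⟨j, hj⟩
  have hb := branch_dev μ D s hP0 hP ⟨j, hj⟩ (hη.trans_le hs') (hs ⟨j, hj⟩) hr (q j) z
  have hlev : √P / (lev k (j + 1) * t (j + 1)) ≤ ((k : ℝ) + 1) * √P / η := by
    have hl : 1 / ((k : ℝ) + 1) ≤ lev k (j + 1) := by
      unfold lev
      gcongr
      exact_mod_cast Nat.le_add_left 1 j
    refine (div_le_div_of_nonneg_left (sqrt_nonneg _) (by positivity)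
      (mul_le_mul hl hs' hη.le (lev_nonneg _))).trans (le_of_eq ?_)
    field_simp
  set U := cnd (stdG (κ ⊕ Fin n)) μ (gham D s) (fun z _ => msq μ D s (j + 1) z) j z
  set M := msq μ D s j z
  have hd0 : 0 ≤ U - M := sub_nonneg.2 (msq_le μ D s (Nat.le_succ _) z)
  have hU : mass k * (U - q (j + 1)) = (condTail μ D s j z - tail k q (j + 1))
      - (cnd (stdG (κ ⊕ Fin n)) μ (gham D s) (fun z _ => condTail μ D s (j + 1) z) j z
          - tail k q (j + 2)) := by
    rw [mul_sub, inc_eq_tails μ D s hj z, tail_step q (show j + 1 ≤ k from hj)]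
    ring
  have h1 := tail_dev μ D s hη ht hs q p₀ hj.le z
  have hct : Tame (gaussSize (κ ⊕ Fin n)) fun z (_ : X) => condTail (k := k) μ D s (j + 1) z := by
    unfold condTail
    exact (Tame.sum _ fun l _ => cnd_tame hH (tame_msq μ D s l) (j + 1)).const_mul _
  have h2 : |cnd (stdG (κ ⊕ Fin n)) μ (gham D s) (fun z _ => condTail μ D s (j + 1) z) j z
        - tail k q (j + 2)|
      ≤ η⁻¹ * cnd (stdG (κ ⊕ Fin n)) μ (gham D s) (devAt D t p₀ q (j + 1)) j z
        + cnd (stdG (κ ⊕ Fin n)) μ (gham D s) (devB D p₀) j z := by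
    have hd := tame_devAt (k := k) D t p₀ q (j + 1)
    have hE : Tame (gaussSize (κ ⊕ Fin n)) fun z (_ : X) =>
        η⁻¹ * cnd (stdG (κ ⊕ Fin n)) μ (gham D s) (devAt (k := k) D t p₀ q (j + 1)) (j + 1) z
          + cnd (stdG (κ ⊕ Fin n)) μ (gham D s) (devB D p₀) (j + 1) z :=
      ((cnd_tame hH hd (j + 1)).const_mul _).add (cnd_tame hH (tame_devB D p₀) (j + 1))
    have htt : Tame (gaussSize (κ ⊕ Fin n)) fun z (_ : X) =>
        condTail (k := k) μ D s (j + 1) z - tail k q (j + 2) := hct.sub (tame_cst _)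
    have h := abs_cnd_le μ D s htt j z
    rw [cnd_sub hH hct (tame_cst _), cnd_const hH] at h
    refine h.trans ((cnd_mono (μ := μ) hH (tame_abs htt) hE
      (fun z' _ => tail_dev μ D s hη ht hs q p₀ (show j + 1 ≤ k from hj) z') j z).trans (le_of_eq ?_))
    rw [cnd_add hH ((cnd_tame hH hd (j + 1)).const_mul _) (cnd_tame hH (tame_devB D p₀) (j + 1)),
      cnd_const_mul, cnd_tower hH (Nat.le_succ j), cnd_tower hH (Nat.le_succ j)]
  have hmass : |U - q (j + 1)| = ((k : ℝ) + 1) * |mass k * (U - q (j + 1))| := by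
    rw [abs_mul, abs_of_pos mass_pos]; unfold mass; field_simp
  have h4 := hmass.le.trans (mul_le_mul_of_nonneg_left
    (le_of_eq_of_le (congrArg abs hU) ((abs_sub _ _).trans (add_le_add h1 h2))) (by positivity))
  have h3 : |M - q j| ≤ (U - M) + |U - q (j + 1)| + (q (j + 1) - q j) := by
    rw [abs_le]
    constructor <;> linarith [le_abs_self (U - q (j + 1)), neg_abs_le (U - q (j + 1))]
  have h5 := mul_le_mul_of_nonneg_left hlev (by positivity : 0 ≤ 3 * r / 2)
  simp only at hb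
  linarith

/-- The mean of an observable of two leaves branching after level `j`, at the root. -/
noncomputable def pairRoot (k : ℕ) (j : ℕ) (ψ : X → X → ℝ) : ℝ :=
  groot (k := k) μ D s fun z _ =>
    pairCnd (stdG (κ ⊕ Fin n)) μ (gham D s) (fun _ x _ y => ψ x y) j z

theorem tame_pairCnd {ψ : X → X → ℝ} (hψm : Measurable (Function.uncurry ψ)) {B : ℝ}
    (hψ : ∀ x y, |ψ x y| ≤ B) (j : ℕ) :
    Tame (gaussSize (κ ⊕ Fin n)) fun z (_ : X) =>
      pairCnd (k := k) (stdG (κ ⊕ Fin n)) μ (gham D s) (fun _ x _ y => ψ x y) j z := by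
  have hH := gham_linB (k := k) D s
  have hI := tame_inner (k := k) μ D s hψm hψ j
  revert hH hI
  generalize gham (k := k) D s = H
  intro hH hI
  have hP := measurable_pairCnd (Q := Unit) (γ := stdG (κ ⊕ Fin n)) (μ := μ)
    (H := fun _ => H) (Ψ := fun _ => ψ)
    (hH.meas.comp ((measurable_snd.comp measurable_fst).prodMk measurable_snd))
    (hψm.comp (measurable_snd : Measurable (Prod.snd : Unit × X × X → X × X))) j
  refine Tame.of_bdd (hP.comp (f := fun p : (Fin k → κ ⊕ Fin n → ℝ) × X => ((), p.1)) (by fun_prop))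
    (B := B) fun z _ => ?_
  exact cnd_abs_le hH (hI z).meas
    (fun _ x => cnd_abs_le (φ := fun _ y => ψ x y) hH
      ((hψm.comp (measurable_prodMk_left (x := x))).comp measurable_snd) (fun _ y => hψ x y) j z) j z

theorem meas_absdot (c : ℝ) : Measurable (Function.uncurry fun x y => |dot D x y - c|) :=
  continuous_abs.measurable.comp ((meas_dot D).sub_const c)

theorem pairRoot_le_bd {P : ℝ} (hP : ∀ x, bsq D x ≤ P) {c : ℝ} (hc : |c| ≤ P) (j : ℕ) :
    pairRoot μ D s k j (fun x y => |dot D x y - c|) ≤ 2 * P := by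
  have hH := gham_linB (k := k) D s
  have hb : ∀ x y, |(|dot D x y - c|)| ≤ 2 * P := fun x y =>
    (abs_abs _).trans_le ((abs_sub _ _).trans (by linarith [abs_dot_le D hP x y]))
  have hI := fun z : Fin k → κ ⊕ Fin n → ℝ => tame_inner (k := k) μ D s (meas_absdot D c) hb j z
  refine (le_abs_self _).trans (cnd_abs_le hH
    (tame_pairCnd μ D s (meas_absdot D c) hb j).meas (fun z _ => ?_) 0 _)
  exact cnd_abs_le hH (hI z).meas (fun _ x => cnd_abs_le (φ := fun _ y => |dot D x y - c|) hH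
    (((meas_absdot D c).comp (measurable_prodMk_left (x := x))).comp measurable_snd)
    (fun _ y => hb x y) j z) j z

include hη ht hs in
/-- The error at one branch level, seen from the root. -/
theorem root_err {P : ℝ} (hP0 : 0 < P) (hP : ∀ x, bsq D x ≤ P) {r : ℝ} (hr : 0 < r) (q : ℕ → ℝ)
    (p₀ : ℝ) {j : ℕ} (hj : j < k) (hq : q j ≤ q (j + 1)) :
    pairRoot μ D s k j (fun x y => |dot D x y - q j|)
      ≤ (3 * r / 2 + 1) * (groot (k := k) μ D s (fun z _ => msq μ D s (j + 1) z)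
            - groot (k := k) μ D s (fun z _ => msq μ D s j z))
        + ((3 * r / 2) * (((k : ℝ) + 1) * √P / η) + P / (2 * r) + (q (j + 1) - q j))
        + ((k : ℝ) + 1) * ((η⁻¹ * groot (k := k) μ D s (devAt D t p₀ q j)
              + groot (k := k) μ D s (devB D p₀))
            + (η⁻¹ * groot (k := k) μ D s (devAt D t p₀ q (j + 1))
              + groot (k := k) μ D s (devB D p₀))) := by
  have hH := gham_linB (k := k) D s
  have t1 : Tame (gaussSize (κ ⊕ Fin n)) fun z (_ : X) =>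
      cnd (stdG (κ ⊕ Fin n)) μ (gham (k := k) D s) (fun z _ => msq μ D s (j + 1) z) j z :=
    cnd_tame hH (tame_msq μ D s _) j
  have tA := fun i => ((cnd_tame (μ := μ) hH (tame_devAt (k := k) D t p₀ q i) j).const_mul η⁻¹).add
    (cnd_tame (μ := μ) hH (tame_devB D p₀) j)
  have tB := (t1.sub (tame_msq μ D s j)).const_mul (3 * r / 2 + 1)
  have hb : ∀ x y, |(|dot D x y - q j|)| ≤ P + |q j| := fun x y =>
    (abs_abs _).trans_le ((abs_sub _ _).trans (by linarith [abs_dot_le D hP x y]))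
  unfold pairRoot groot
  refine (cnd_mono hH (tame_pairCnd μ D s (meas_absdot D (q j)) hb j)
    ((tB.add (tame_cst _)).add (((tA j).add (tA (j + 1))).const_mul ((k : ℝ) + 1)))
    (fun z _ => level_err μ D s hη ht hs hP0 hP hr q p₀ hj hq z) 0 _).trans (le_of_eq ?_)
  rw [cnd_add hH (tB.add (tame_cst _)) (((tA j).add (tA (j + 1))).const_mul _),
    cnd_add hH tB (tame_cst _), cnd_const hH, cnd_const_mul, cnd_const_mul,
    cnd_sub hH t1 (tame_msq μ D s j), cnd_add hH (tA j) (tA (j + 1)),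
    cnd_add hH ((cnd_tame hH (tame_devAt D t p₀ q j) j).const_mul _) (cnd_tame hH (tame_devB D p₀) j),
    cnd_add hH ((cnd_tame hH (tame_devAt D t p₀ q (j + 1)) j).const_mul _)
      (cnd_tame hH (tame_devB D p₀) j)]
  simp only [cnd_const_mul, cnd_tower hH (Nat.zero_le j)]

include hη ht hs in
/-- The total error from the fluctuations of the energies and of the squared length. -/
theorem tot_le {P : ℝ} (hP0 : 0 < P) (hP : ∀ x, bsq D x ≤ P) {q : ℕ → ℝ} (hq0 : q 0 = 0)
    (hqm : ∀ j, j < k → q j ≤ q (j + 1)) (hqk : q k ≤ P) (p₀ : ℝ) :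
    mass k * ∑ j ∈ Icc 0 k, pairRoot μ D s k j (fun x y => |dot D x y - q j|)
      ≤ 8 * P / √((k : ℝ) + 1) + 3 / 2 * √((k : ℝ) + 1) * (((k : ℝ) + 1) * √P / η)
        + 2 / η * ∑ j ∈ range k, groot (k := k) μ D s (devAt D t p₀ q j)
        + 2 * k * groot (k := k) μ D s (devB D p₀) := by
  set r := √((k : ℝ) + 1) with hr
  have hr0 : 0 < r := Real.sqrt_pos.2 (by positivity)
  have hr1 : 1 ≤ r := Real.one_le_sqrt.2 (by linarith [show (0 : ℝ) ≤ k from Nat.cast_nonneg k])
  have hrr : r * r = (k : ℝ) + 1 := Real.mul_self_sqrt (by positivity)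
  set F := fun j => groot (k := k) μ D s (devAt D t p₀ q j)
  set G := groot (k := k) μ D s (devB D p₀)
  set m := fun j => groot (k := k) μ D s fun z _ => msq μ D s j z
  set e := fun j => pairRoot μ D s k j (fun x y => |dot D x y - q j|)
  have hH := gham_linB (k := k) D s
  have hF : ∀ j, 0 ≤ F j := fun j => cnd_nonneg (fun z x => devAt_nonneg D _ _ _ _ z x) _ _
  have hG : 0 ≤ G := cnd_nonneg (fun z x => abs_nonneg _) _ _
  have hm : ∀ j, 0 ≤ m j ∧ m j ≤ P := fun j => ⟨cnd_nonneg (fun z _ => msq_nonneg μ D s j z) _ _,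
    (cnd_mono hH (tame_msq μ D s j) (tame_cst P) (fun z _ => msq_le_bd μ D s hP j z) 0 _).trans_eq
      (cnd_const hH P 0 _)⟩
  have hmm : ∀ j, m j ≤ m (j + 1) := fun j =>
    (cnd_mono hH (tame_msq μ D s j) (cnd_tame hH (tame_msq μ D s (j + 1)) j)
      (fun z _ => msq_le μ D s (Nat.le_succ j) z) 0 _).trans_eq (cnd_tower hH (Nat.zero_le j) _)
  have hnn : ∀ j ≤ k, 0 ≤ q j := fun j hj => by
    induction j with
    | zero => rw [hq0]
    | succ i ih => exact (ih (by omega)).trans (hqm i (by omega))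
  have hle : ∀ j ≤ k, q j ≤ P := fun j hj => by
    induction hd : k - j generalizing j with
    | zero => rw [show j = k by omega]; exact hqk
    | succ i ih => exact (hqm j (by omega)).trans (ih (j + 1) (by omega) (by omega))
  have hmem : ∀ j ≤ k, |q j| ≤ P := fun j hj => by rw [abs_of_nonneg (hnn j hj)]; exact hle j hj
  set cN := (3 * r / 2) * (((k : ℝ) + 1) * √P / η) + P / (2 * r)
  have hc0 : 0 ≤ cN := by positivity
  have hk1 : (0 : ℝ) ≤ ((k : ℝ) + 1) / η := by positivity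
  have hb : ∀ j ∈ range k, e j ≤ (3 * r / 2 + 1) * (m (j + 1) - m j) + (q (j + 1) - q j) + cN
      + ((k : ℝ) + 1) / η * (F j + F (j + 1)) + 2 * ((k : ℝ) + 1) * G := fun j hj => by
    rw [mem_range] at hj
    refine (root_err μ D s hη ht hs hP0 hP hr0 q p₀ hj (hqm j hj)).trans (le_of_eq ?_)
    simp only [F, G, m, cN]
    ring
  have hlast : e k ≤ 2 * P := pairRoot_le_bd μ D s hP (hmem k le_rfl) k
  have hsum : ∑ j ∈ Icc 0 k, e j ≤ 2 * P + (3 * r / 2 + 2) * P + (k : ℝ) * cN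
      + 2 * (((k : ℝ) + 1) / η) * ∑ j ∈ range k, F j + (k : ℝ) * (2 * ((k : ℝ) + 1) * G) := by
    rw [show Icc 0 k = insert k (range k) from Finset.ext fun l => by
      simp only [mem_insert, mem_range, mem_Icc]; omega, sum_insert (by simp)]
    refine (add_le_add hlast (sum_le_sum hb)).trans ?_
    rw [sum_add_distrib, sum_add_distrib, sum_add_distrib, sum_add_distrib, ← mul_sum, sum_range_sub,
      sum_range_sub, sum_const, card_range, nsmul_eq_mul, ← mul_sum, sum_const, card_range,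
      nsmul_eq_mul, sum_add_distrib]
    have h1 : (3 * r / 2 + 1) * (m k - m 0) + (q k - q 0) ≤ (3 * r / 2 + 2) * P := by
      have := mul_le_mul_of_nonneg_left (show m k - m 0 ≤ P by linarith [(hm 0).1, (hm k).2])
        (by positivity : 0 ≤ 3 * r / 2 + 1)
      linarith [hnn 0 (Nat.zero_le _)]
    have h2 : ∑ j ∈ range k, F (j + 1) ≤ ∑ j ∈ range k, F j := by
      have ha := sum_range_succ' F k
      have hb' := sum_range_succ F k
      have hFk : F k = 0 := by
        simp only [F, devAt, dif_neg (lt_irrefl k), groot]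
        exact cnd_const hH 0 0 _
      linarith [hF 0]
    have h3 := mul_le_mul_of_nonneg_left h2 hk1
    linarith
  refine (mul_le_mul_of_nonneg_left hsum mass_pos.le).trans ?_
  have hmass : mass k = 1 / (r * r) := by rw [mass, hrr]
  have h1 : mass k * (k : ℝ) * cN ≤ cN :=
    mul_le_of_le_one_left hc0 (by rw [mass, one_div_mul_eq_div, div_le_one (by positivity)]; linarith)
  have h3 : mass k * (2 * (((k : ℝ) + 1) / η)) = 2 / η := by unfold mass; field_simp
  have h6 : mass k * ((k : ℝ) * (2 * ((k : ℝ) + 1) * G)) = 2 * k * G := by unfold mass; field_simp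
  have h4 : mass k * (2 * P + (3 * r / 2 + 2) * P) + P / (2 * r) ≤ 8 * P / r := by
    rw [hmass]
    field_simp
    nlinarith
  have h5 : 3 / 2 * r * (((k : ℝ) + 1) * √P / η) = (3 * r / 2) * (((k : ℝ) + 1) * √P / η) := by ring
  rw [h5]
  have hcN : cN = (3 * r / 2) * (((k : ℝ) + 1) * √P / η) + P / (2 * r) := rfl
  simp only [F] at h3 ⊢
  rw [mul_add, mul_add, mul_add, h6, ← mul_assoc (mass k) (k : ℝ) cN,
    ← mul_assoc (mass k) (2 * (((k : ℝ) + 1) / η)), h3]
  linarith

end Vale.Agent.P166.Rsb.Syn
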