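import Vale.Agent.P166.Rsb.Calc
import Vale.Agent.P166.Rsb.Sync.Branch

/-!
# P166: the two one-parameter families behind the deviations inside the last block

In the amplitude `t` of level `a + 1` the value plus `t² N / 2` is convex with slope the mean of
`lineObs`; in the shift `h` of the last atom the value is convex with slope the mean of
`β / 2 · topSq`.
-/

open MeasureTheory ProbabilityTheory Real Finset
open Vale.Agent.P157 (cubeLaw)

namespace Vale.Agent.P166.Rsb.Syn

variable {d N k : ℕ}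

/-- The observable conjugate to the amplitude `t` of level `a + 1`. -/
noncomputable def lineObs (β : ℝ) (α : Fin (d + 1) → ℝ) (c : Fin N → Fin (d + 1))
    (U : Fin N → Fin N → ℝ) (a : Fin k) (t : ℝ) (z : Fin k → Fld N → ℝ) (s : Fin N → Bool) : ℝ :=
  fobs (fdata β α c U) a z s + t * (N - topSq c U s)

/-- The root expectation of an observable of fields and configuration. -/
noncomputable def rootE (β : ℝ) (α : Fin (d + 1) → ℝ) (c : Fin N → Fin (d + 1))
    (U : Fin N → Fin N → ℝ) (σ τ : ℕ → ℝ) (φ : (Fin k → Fld N → ℝ) → (Fin N → Bool) → ℝ) : ℝ :=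
  groot (cubeLaw N) (fdata β α c U) (ampV σ τ) φ

/-- The convexified value along the amplitude of level `a + 1`. -/
noncomputable def ampVal (β : ℝ) (α : Fin (d + 1) → ℝ) (c : Fin N → Fin (d + 1))
    (U : Fin N → Fin N → ℝ) (σ τ : ℕ → ℝ) (a : Fin k) (t : ℝ) : ℝ :=
  rootU k β α c σ (Function.update τ ((a : ℕ) + 1) t) U + t ^ 2 / 2 * N

/-- Its slope. -/
noncomputable def ampSlope (β : ℝ) (α : Fin (d + 1) → ℝ) (c : Fin N → Fin (d + 1))
    (U : Fin N → Fin N → ℝ) (σ τ : ℕ → ℝ) (a : Fin k) (t : ℝ) : ℝ :=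
  rootE β α c U σ (Function.update τ ((a : ℕ) + 1) t) (lineObs β α c U a t)

/-- Its thermal variance. -/
noncomputable def ampVar (β : ℝ) (α : Fin (d + 1) → ℝ) (c : Fin N → Fin (d + 1))
    (U : Fin N → Fin N → ℝ) (σ τ : ℕ → ℝ) (a : Fin k) (t : ℝ) : ℝ :=
  rootE β α c U σ (Function.update τ ((a : ℕ) + 1) t) (fun z s => lineObs β α c U a t z s ^ 2)
    - ampSlope β α c U σ τ a t ^ 2

/-- The slope in the shift of the last atom. -/
noncomputable def shiftSlope (k : ℕ) (β : ℝ) (α : Fin (d + 1) → ℝ) (c : Fin N → Fin (d + 1))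
    (U : Fin N → Fin N → ℝ) (σ τ : ℕ → ℝ) (h : ℝ) : ℝ :=
  gibR β (raise α h) c U k σ τ fun s => β / 2 * topSq c U s

/-- Its thermal variance. -/
noncomputable def shiftVar (k : ℕ) (β : ℝ) (α : Fin (d + 1) → ℝ) (c : Fin N → Fin (d + 1))
    (U : Fin N → Fin N → ℝ) (σ τ : ℕ → ℝ) (h : ℝ) : ℝ :=
  gibR β (raise α h) c U k σ τ (fun s => (β / 2 * topSq c U s) ^ 2)
    - shiftSlope k β α c U σ τ h ^ 2

end Vale.Agent.P166.Rsb.Syn
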