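import Vale.Agent.P157.Rsb.SyncTools
import Vale.Agent.P166.Rsb.Sync.Obs

/-!
# P166: measurability and bounds in the amplitudes inside the last block, the shift and the rotation
-/

open MeasureTheory ProbabilityTheory Real Finset
open Vale.Agent.P157 (cubeLaw)
open Vale.Agent.P157.Rsb (stdG cnd cnd_bound_unif cnd_measurable_param_at lift lift_succ gaussSize Tame)

namespace Vale.Agent.P166.Rsb.Syn

variable {d N k : ℕ} (β : ℝ) (α : Fin (d + 1) → ℝ) (c : Fin N → Fin (d + 1)) (σ : ℕ → ℝ)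

/-- The moving parameters: amplitudes inside the last block, shift, rotation. -/
abbrev Mov (k N : ℕ) := ((Fin k → ℝ) × ℝ) × (Fin N → Fin N → ℝ)

/-- The root expectation at moving parameters. -/
noncomputable def movE (φ : Mov k N → (Fin k → Fld N → ℝ) → (Fin N → Bool) → ℝ) (p : Mov k N) : ℝ :=
  rootE β (raise α p.1.2) c p.2 σ (lift p.1.1) (φ p)

/-- The box of moving parameters with orthogonal rotation. -/
def MovOK (R : ℝ) (p : Mov k N) : Prop :=
  (∀ l, |p.1.1 l| ≤ R) ∧ |p.1.2| ≤ R ∧ IsOrth p.2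

/-- Observables with measurable dependence and one exponential bound on the box. -/
def MovTame (R : ℝ) (φ : Mov k N → (Fin k → Fld N → ℝ) → (Fin N → Bool) → ℝ) : Prop :=
  (Measurable fun q : (Mov k N × (Fin k → Fld N → ℝ)) × (Fin N → Bool) => φ q.1.1 q.1.2 q.2) ∧
    ∃ A, 0 ≤ A ∧ ∀ p, MovOK R p → ∀ z s, |φ p z s| ≤ A * exp (A * (gaussSize (Fld N)).tot z)

theorem gham_mov_meas :
    Measurable fun q : (Mov k N × (Fin k → Fld N → ℝ)) × (Fin N → Bool) =>
      gham (fdata β (raise α q.1.1.1.2) c q.1.1.2) (ampV σ (lift q.1.1.1.1)) q.1.2 q.2 := by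
  simp only [← hamU_eq]
  refine measurable_from_prod_countable_left fun s => ?_
  simp only [hamU, topSq, rotate, raise, lift_succ]
  refine Measurable.sub (Measurable.sub (Measurable.add ?_ ?_) ?_) ?_
  · refine Measurable.const_mul (Finset.measurable_sum _ fun i _ => ?_) _
    by_cases hi : c i = Fin.last d
    · simp only [hi, if_true]; fun_prop
    · simp only [hi, if_false]; fun_prop
  · fun_prop
  · fun_prop
  · fun_prop

theorem movE_meas {φ : Mov k N → (Fin k → Fld N → ℝ) → (Fin N → Bool) → ℝ}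
    (hφ : Measurable fun q : (Mov k N × (Fin k → Fld N → ℝ)) × (Fin N → Bool) =>
      φ q.1.1 q.1.2 q.2) :
    Measurable (movE β α c σ φ) :=
  cnd_measurable_param_at (γ := stdG (Fld N)) (μ := cubeLaw N)
    (H := fun p : Mov k N => gham (k := k) (fdata β (raise α p.1.2) c p.2) (ampV σ (lift p.1.1)))
    (φ := φ) (gham_mov_meas β α c σ) hφ 0 _

theorem abs_rotate_le {U : Fin N → Fin N → ℝ} (hU : IsOrth U) (s : Fin N → Bool) (i : Fin N) :
    |rotate U s i| ≤ √N := by
  refine Real.le_sqrt_of_sq_le ?_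
  rw [sq_abs, ← sum_sq_rotate hU s]
  exact single_le_sum (f := fun i => rotate U s i ^ 2) (fun _ _ => sq_nonneg _) (mem_univ i)

theorem abs_fldV_le {U : Fin N → Fin N → ℝ} (hU : IsOrth U) (s : Fin N → Bool) (i : Fld N) :
    |fldV c U s i| ≤ 1 + √N := by
  rcases i with i | i
  · simp only [fldV, Sum.elim_inl]
    have : |spin (s i)| = 1 := by unfold spin; split_ifs <;> norm_num
    linarith [sqrt_nonneg (N : ℝ)]
  · simp only [fldV, Sum.elim_inr, abs_mul]
    refine (mul_le_of_le_one_left (abs_nonneg _) ?_).trans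
      ((abs_rotate_le hU s i).trans (by linarith))
    unfold topMask; split_ifs <;> norm_num

/-- One bound on the box, uniform in the rotation. -/
theorem movE_bound {R : ℝ} {φ : Mov k N → (Fin k → Fld N → ℝ) → (Fin N → Bool) → ℝ}
    (hφ : MovTame R φ) : ∃ M, 0 ≤ M ∧ ∀ p, MovOK R p → |movE β α c σ φ p| ≤ M := by
  obtain ⟨hm, A, hA, hb⟩ := hφ
  set S := (∑ l : Fin k, |σ ((l : ℕ) + 1)|) + |R|
  set B := (1 + √N) + |β / 2| * ((∑ e, (|α e| + |R|)) * N)
  set A₀ := |S| * B + k * Fintype.card (Fld N) * (S ^ 2 / 2 * B ^ 2) + B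
  have hA₀ : 0 ≤ A₀ := by positivity
  obtain ⟨A', hA', hC⟩ := cnd_bound_unif (k := k) (μ := cubeLaw N) (gaussSize (Fld N))
    (show 0 ≤ A₀ + A by positivity)
  refine ⟨A' * exp (A' * (gaussSize (Fld N)).tot fun (_ : Fin k) _ => 0), by positivity,
    fun p hp => ?_⟩
  obtain ⟨hy, hh, hU⟩ := hp
  refine hC (gham (fdata β (raise α p.1.2) c p.2) (ampV σ (lift p.1.1))) (φ p) (gham_meas _ _)
    (hm.comp (f := fun q : (Fin k → Fld N → ℝ) × (Fin N → Bool) => ((p, q.1), q.2)) (by fun_prop))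
    (fun z s => ?_) (fun z s => ?_) 0 _
  · refine (abs_gham_le (R := S) (B := B) (fdata β (raise α p.1.2) c p.2) (by positivity)
      (fun x => ⟨fun i => ?_, ?_⟩) (fun l i => ?_) z s).trans
      (mul_le_mul_of_nonneg_right (show A₀ ≤ A₀ + A by linarith)
        (by linarith [(gaussSize (Fld N)).tot_nonneg z]))
    · exact (abs_fldV_le c hU x i).trans (le_add_of_nonneg_right (by positivity))
    · show |β / 2 * enV (raise α p.1.2) c p.2 x| ≤ B
      rw [abs_mul]
      refine le_add_of_nonneg_of_le (by positivity) (mul_le_mul_of_nonneg_left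
        ((abs_enV_le _ c hU x).trans (mul_le_mul_of_nonneg_right (sum_le_sum fun e _ => ?_)
          (Nat.cast_nonneg N))) (abs_nonneg _))
      unfold raise
      refine (abs_add_le _ _).trans (add_le_add le_rfl ?_)
      split_ifs
      · exact hh.trans (le_abs_self R)
      · rw [abs_zero]; exact abs_nonneg R
    · rcases i with i | i
      · exact (single_le_sum (f := fun l : Fin k => |σ ((l : ℕ) + 1)|) (fun _ _ => abs_nonneg _)
          (mem_univ l)).trans (le_add_of_nonneg_right (abs_nonneg R))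
      · show |lift p.1.1 ((l : ℕ) + 1)| ≤ S
        rw [lift_succ]
        exact ((hy l).trans (le_abs_self R)).trans
          (le_add_of_nonneg_left (sum_nonneg fun _ _ => abs_nonneg _))
  · exact Tame.mono_bound hA (by linarith) (fun z s => hb p ⟨hy, hh, hU⟩ z s) z s

variable {β α c σ}

theorem MovTame.sub {R : ℝ} {φ ψ : Mov k N → (Fin k → Fld N → ℝ) → (Fin N → Bool) → ℝ}
    (h : MovTame R φ) (h' : MovTame R ψ) : MovTame R fun p z s => φ p z s - ψ p z s := by
  obtain ⟨hm, A, hA, hb⟩ := h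
  obtain ⟨hm', A', hA', hb'⟩ := h'
  refine ⟨hm.sub hm', A + A', by positivity, fun p hp z s => ?_⟩
  have ht := (gaussSize (Fld N)).tot_nonneg z
  refine (abs_sub _ _).trans ?_
  rw [add_mul A A']
  exact add_le_add
    ((hb p hp z s).trans (mul_le_mul_of_nonneg_left
      (exp_le_exp.2 (mul_le_mul_of_nonneg_right (by linarith) ht)) hA))
    ((hb' p hp z s).trans (mul_le_mul_of_nonneg_left
      (exp_le_exp.2 (mul_le_mul_of_nonneg_right (by linarith) ht)) hA'))

theorem MovTame.abs {R : ℝ} {φ : Mov k N → (Fin k → Fld N → ℝ) → (Fin N → Bool) → ℝ}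
    (h : MovTame R φ) : MovTame R fun p z s => |φ p z s| := by
  obtain ⟨hm, A, hA, hb⟩ := h
  exact ⟨continuous_abs.measurable.comp hm, A, hA, fun p hp z s => (abs_abs _).trans_le (hb p hp z s)⟩

theorem MovTame.mul {R : ℝ} {φ ψ : Mov k N → (Fin k → Fld N → ℝ) → (Fin N → Bool) → ℝ}
    (h : MovTame R φ) (h' : MovTame R ψ) : MovTame R fun p z s => φ p z s * ψ p z s := by
  obtain ⟨hm, A, hA, hb⟩ := h
  obtain ⟨hm', A', hA', hb'⟩ := h'
  refine ⟨hm.mul hm', A * A' + (A + A'), by positivity, fun p hp z s => ?_⟩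
  have ht := (gaussSize (Fld N)).tot_nonneg z
  rw [abs_mul]
  refine (mul_le_mul (hb p hp z s) (hb' p hp z s) (abs_nonneg _) (by positivity)).trans ?_
  rw [mul_mul_mul_comm, ← exp_add, ← add_mul]
  exact mul_le_mul (by linarith) (exp_le_exp.2 (mul_le_mul_of_nonneg_right (by nlinarith) ht))
    (exp_pos _).le (by positivity)

/-- A parameter alone. -/
theorem movTame_par {R B : ℝ} {f : Mov k N → ℝ} (hf : Measurable f)
    (hB : ∀ p, MovOK R p → |f p| ≤ B) :
    MovTame R fun p (_ : Fin k → Fld N → ℝ) (_ : Fin N → Bool) => f p := by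
  refine ⟨hf.comp (measurable_fst.comp measurable_fst), |B|, abs_nonneg B, fun p hp z _ => ?_⟩
  exact ((hB p hp).trans (le_abs_self B)).trans (le_mul_of_one_le_right (abs_nonneg B)
    (one_le_exp (mul_nonneg (abs_nonneg B) ((gaussSize (Fld N)).tot_nonneg z))))

theorem movTame_topSq (R : ℝ) :
    MovTame R fun (p : Mov k N) (_ : Fin k → Fld N → ℝ) s => topSq c p.2 s := by
  refine ⟨measurable_from_prod_countable_left fun s => ?_, N, Nat.cast_nonneg N, fun p hp z s => ?_⟩
  · exact (continuous_topSq c s).measurable.comp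
      (measurable_snd.comp measurable_fst)
  · rw [abs_of_nonneg (topSq_nonneg c p.2 s)]
    exact (topSq_le c p.2 hp.2.2 s).trans (le_mul_of_one_le_right (Nat.cast_nonneg N)
      (one_le_exp (mul_nonneg (Nat.cast_nonneg N) ((gaussSize (Fld N)).tot_nonneg z))))

theorem movTame_fobs (β : ℝ) (α : Fin (d + 1) → ℝ) (R : ℝ) (a : Fin k) :
    MovTame R fun (p : Mov k N) z s => fobs (fdata β (raise α p.1.2) c p.2) a z s := by
  refine ⟨measurable_from_prod_countable_left fun s => ?_, N * (1 + √N) + 1, by positivity,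
    fun p hp z s => ?_⟩
  · simp only [fobs, fdata, fldV, Sum.elim_inr, rotate]
    fun_prop
  · have ht : 0 ≤ (gaussSize (Fld N)).tot z := (gaussSize (Fld N)).tot_nonneg z
    have h1 : |fobs (fdata β (raise α p.1.2) c p.2) a z s|
        ≤ N * ((gaussSize (Fld N)).tot z * (1 + √N)) := by
      refine (abs_sum_le_sum_abs _ _).trans ((sum_le_card_nsmul _ _
        ((gaussSize (Fld N)).tot z * (1 + √N)) fun i _ => ?_).trans (le_of_eq (by simp)))
      rw [abs_mul]
      exact mul_le_mul (abs_z_le_tot z a _) (abs_fldV_le c hp.2.2 s (.inr i) :) (abs_nonneg _) ht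
    set A := (N : ℝ) * (1 + √N) + 1
    have h2 : (gaussSize (Fld N)).tot z ≤ exp (A * (gaussSize (Fld N)).tot z) := by
      have h3 := add_one_le_exp (A * (gaussSize (Fld N)).tot z)
      have h4 : (gaussSize (Fld N)).tot z ≤ A * (gaussSize (Fld N)).tot z :=
        le_mul_of_one_le_left ht (le_add_of_nonneg_left (by positivity))
      linarith
    refine h1.trans ?_
    calc (N : ℝ) * ((gaussSize (Fld N)).tot z * (1 + √N))
        = (N * (1 + √N)) * (gaussSize (Fld N)).tot z := by ring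
      _ ≤ A * exp (A * (gaussSize (Fld N)).tot z) :=
          mul_le_mul (le_add_of_nonneg_right zero_le_one) h2 ht (by positivity)

variable {m : Measure (Fin N → Fin N → ℝ)}

/-- Integration over the rotation keeps measurability and boundedness on a box. -/
theorem int_mov (hm : IsHaarOrth m) {R : ℝ} {Φ : Mov k N → ℝ} (hΦ : Measurable Φ)
    {M : ℝ} (hM : ∀ p, MovOK R p → |Φ p| ≤ M) :
    Measurable (fun q : (Fin k → ℝ) × ℝ => ∫ U, Φ (q, U) ∂m) ∧
      ∀ q : (Fin k → ℝ) × ℝ, (∀ l, |q.1 l| ≤ R) → |q.2| ≤ R →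
        Integrable (fun U => Φ (q, U)) m ∧ |∫ U, Φ (q, U) ∂m| ≤ M := by
  have := hm.1
  refine ⟨(StronglyMeasurable.integral_prod_right' (ν := m) hΦ.stronglyMeasurable).measurable,
    fun q hy hh => ?_⟩
  have hae : ∀ᵐ U ∂m, ‖Φ (q, U)‖ ≤ M :=
    hm.2.1.mono fun U hU => (Real.norm_eq_abs _).trans_le (hM _ ⟨hy, hh, hU⟩)
  refine ⟨Integrable.of_bound (hΦ.comp measurable_prodMk_left).aestronglyMeasurable M hae, ?_⟩
  simpa [probReal_univ] using norm_integral_le_of_norm_le_const hae

end Vale.Agent.P166.Rsb.Syn
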