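import Vale.Agent.P166.Rsb.Sync.Line
import Vale.Agent.P166.Rsb.Sync.Meas

/-!
# P166: the error inside the last block from two mean fluctuations
-/

open MeasureTheory ProbabilityTheory Real Finset
open Vale.Agent.P157 (cubeLaw)
open Vale.Agent.P157.Rsb (stdG cnd pairCnd IsPath lift lift_succ tail mass_pos cnd_const_mul cnd_sub
  cnd_const cnd_add cnd_finsum cnd_mono Tame)

namespace Vale.Agent.P166.Rsb.Syn

variable {d N k : ℕ}

variable (m : Measure (Fin N → Fin N → ℝ)) (β : ℝ) (α : Fin (d + 1) → ℝ) (c : Fin N → Fin (d + 1))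
  (σ : ℕ → ℝ)

/-- The observable conjugate to an amplitude at moving parameters. -/
noncomputable def obsL (a : Fin k) (p : Mov k N) (z : Fin k → Fld N → ℝ) (s : Fin N → Bool) : ℝ :=
  lineObs β (raise α p.1.2) c p.2 a (p.1.1 a) z s

/-- The squared length inside the last block at moving parameters. -/
noncomputable def obsB (p : Mov k N) (_ : Fin k → Fld N → ℝ) (s : Fin N → Bool) : ℝ := topSq c p.2 s

/-- The mean squared length inside the last block. -/
noncomputable def meanB (q : (Fin k → ℝ) × ℝ) : ℝ := ∫ U, movE β α c σ (obsB c) (q, U) ∂m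

/-- The mean slope in an amplitude. -/
noncomputable def meanL (a : Fin k) (q : (Fin k → ℝ) × ℝ) : ℝ :=
  ∫ U, movE β α c σ (obsL β α c a) (q, U) ∂m

/-- The deviation of one field pairing from its mean. -/
noncomputable def devL (a : Fin k) (p : Mov k N) (z : Fin k → Fld N → ℝ) (s : Fin N → Bool) : ℝ :=
  |fobs (fdata β (raise α p.1.2) c p.2) a z s
    - (meanL m β α c σ a p.1 - p.1.1 a * (N - meanB m β α c σ p.1))|

/-- The deviation of the squared length from its mean. -/
noncomputable def devM (p : Mov k N) (_ : Fin k → Fld N → ℝ) (s : Fin N → Bool) : ℝ :=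
  |topSq c p.2 s - meanB m β α c σ p.1|

/-- The mean fluctuation of one field pairing. -/
noncomputable def flucL (a : Fin k) (q : (Fin k → ℝ) × ℝ) : ℝ :=
  ∫ U, movE β α c σ (devL m β α c σ a) (q, U) ∂m

/-- The mean fluctuation of the squared length. -/
noncomputable def flucM (q : (Fin k → ℝ) × ℝ) : ℝ := ∫ U, movE β α c σ (devM m β α c σ) (q, U) ∂m

variable {m β α c σ}

theorem movTame_obsL (R : ℝ) (a : Fin k) : MovTame (N := N) R (obsL β α c a) := by
  have hm1 : Measurable fun p : Mov k N => p.1.1 a :=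
    (measurable_pi_apply a).comp (measurable_fst.comp measurable_fst)
  have h1 := movTame_par (N := N) (R := R) (B := R) (f := fun p : Mov k N => -p.1.1 a) hm1.neg
    fun p hp => by rw [abs_neg]; exact hp.1 a
  have h2 := ((movTame_topSq (k := k) (c := c) R).sub
    (movTame_par (k := k) (N := N) (R := R) (B := N) (f := fun _ => (N : ℝ)) measurable_const
      fun _ _ => by simp)).mul h1
  have h3 := (movTame_fobs (c := c) β α R a).sub (h2.mul
    (movTame_par (k := k) (N := N) (R := R) (B := 1) (f := fun _ => (-1 : ℝ)) measurable_const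
      fun _ _ => by simp))
  refine Eq.subst (motive := MovTame R) ?_ h3
  funext p z s
  simp only [obsL, lineObs]
  ring

theorem meanB_reg (hm : IsHaarOrth m) (R : ℝ) :
    Measurable (meanB (k := k) m β α c σ) ∧ ∃ M, 0 ≤ M ∧
      ∀ q : (Fin k → ℝ) × ℝ, (∀ l, |q.1 l| ≤ R) → |q.2| ≤ R → |meanB m β α c σ q| ≤ M := by
  obtain ⟨M, hM0, hM⟩ := movE_bound β α c σ (movTame_topSq (k := k) (c := c) R)
  have h := int_mov hm (movE_meas β α c σ (movTame_topSq (k := k) (c := c) R).1) hM
  exact ⟨h.1, M, hM0, fun q hy hh => (h.2 q hy hh).2⟩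

theorem meanL_reg (hm : IsHaarOrth m) (R : ℝ) (a : Fin k) :
    Measurable (meanL m β α c σ a) ∧ ∃ M, 0 ≤ M ∧
      ∀ q : (Fin k → ℝ) × ℝ, (∀ l, |q.1 l| ≤ R) → |q.2| ≤ R → |meanL m β α c σ a q| ≤ M := by
  obtain ⟨M, hM0, hM⟩ := movE_bound β α c σ (movTame_obsL (β := β) (α := α) (c := c) R a)
  have h := int_mov hm (movE_meas β α c σ (movTame_obsL (β := β) (α := α) (c := c) R a).1) hM
  exact ⟨h.1, M, hM0, fun q hy hh => (h.2 q hy hh).2⟩

theorem movTame_devM (hm : IsHaarOrth m) (R : ℝ) :
    MovTame (k := k) R (devM m β α c σ) := by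
  obtain ⟨hmm, M, _, hM⟩ := meanB_reg (k := k) (β := β) (α := α) (c := c) (σ := σ) hm R
  exact ((movTame_topSq (k := k) (c := c) R).sub (movTame_par (N := N) (B := M)
    (f := fun p => meanB m β α c σ p.1) (hmm.comp measurable_fst) fun p hp => hM p.1 hp.1 hp.2.1)).abs

theorem movTame_devL (hm : IsHaarOrth m) (R : ℝ) (a : Fin k) :
    MovTame R (devL m β α c σ a) := by
  obtain ⟨hmB, M, hM0, hM⟩ := meanB_reg (k := k) (β := β) (α := α) (c := c) (σ := σ) hm R
  obtain ⟨hmL, M', hM0', hM'⟩ := meanL_reg (β := β) (α := α) (c := c) (σ := σ) hm R a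
  refine ((movTame_fobs (c := c) β α R a).sub (movTame_par (B := M' + |R| * (N + M))
    (f := fun p => meanL m β α c σ a p.1 - p.1.1 a * ((N : ℝ) - meanB m β α c σ p.1)) ?_ ?_)).abs
  · exact (hmL.comp measurable_fst).sub (((measurable_pi_apply a).comp
      (measurable_fst.comp measurable_fst)).mul ((hmB.comp measurable_fst).const_sub _))
  · intro p hp
    refine (abs_sub _ _).trans (add_le_add (hM' p.1 hp.1 hp.2.1) ?_)
    rw [abs_mul]
    exact mul_le_mul ((hp.1 a).trans (le_abs_self R))
      ((abs_sub _ _).trans (add_le_add (by simp) (hM p.1 hp.1 hp.2.1))) (abs_nonneg _) (abs_nonneg _)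

/-- The error inside the last block from the two mean fluctuations. -/
theorem topErr_le (hm : IsHaarOrth m) (hN : 1 ≤ N) {η R : ℝ} (hη : 0 < η) (y : Fin k → ℝ) (h : ℝ)
    (hy : ∀ l, η ≤ y l ∧ y l ≤ R) (hh : |h| ≤ R) :
    topErr m k β (raise α h) c σ (lift y)
      ≤ 8 / √((k : ℝ) + 1) + 3 / 2 * √((k : ℝ) + 1) * ((k : ℝ) + 1) / (η * √N)
        + (2 / η * ∑ a : Fin k, flucL m β α c σ a (y, h)
            + (2 * (k : ℝ) + 1) * flucM m β α c σ (y, h)) / N := by
  have := hm.1
  have hN0 : (0 : ℝ) < N := Nat.cast_pos.2 hN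
  have hy' : ∀ l, |y l| ≤ R := fun l => abs_le.2 ⟨by linarith [(hy l).1, (hy l).2], (hy l).2⟩
  set α' := raise α h
  set τ := lift y
  set qh := qTop m k β α' c σ τ
  set ψ := fun (j : ℕ) (U : Fin N → Fin N → ℝ) x x' => |topOv c U x x' - qh j|
  have hp : IsPath k qh := isPath_qTop β α' c hm hN σ τ
  have hpB : meanB m β α c σ (y, h) = N * pTop m k β α' c σ τ := by
    rw [meanB, pTop, gibU_eq, ← integral_const_mul]
    refine integral_congr_ae (ae_of_all _ fun U => ?_)
    simp only [← gibR_mul]
    simp only [movE, rootE, groot, gibR, hamU_eq, obsB, mul_div_cancel₀ _ hN0.ne']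
    rfl
  obtain ⟨ML, _, hML⟩ := movE_bound β α c σ (movTame_devM (k := k) (β := β) (α := α) (c := c)
    (σ := σ) hm R)
  have hL : ∀ a : Fin k, Integrable (fun U => movE β α c σ (devL m β α c σ a) ((y, h), U)) m :=
    fun a => by
      obtain ⟨M, _, hM⟩ := movE_bound β α c σ (movTame_devL (β := β) (α := α) (c := c) (σ := σ) hm R a)
      exact ((int_mov hm (movE_meas β α c σ (movTame_devL hm R a).1) hM).2 (y, h) hy' hh).1
  have hM1 : Integrable (fun U => movE β α c σ (devM m β α c σ) ((y, h), U)) m :=
    ((int_mov hm (movE_meas β α c σ (movTame_devM hm R).1) hML).2 (y, h) hy' hh).1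
  have hLsum : Integrable (fun U => ∑ a : Fin k, movE β α c σ (devL m β α c σ a) ((y, h), U)) m :=
    integrable_finsetSum _ fun a _ => hL a
  have hψm : ∀ j, Measurable fun U => pairR β α' c U k σ τ j (ψ j U) := fun j =>
    pairR_meas β α' c σ τ j fun x x' => continuous_abs.measurable.comp
      ((show Measurable fun U => topOv c U x x' by simp only [topOv, rotate]; fun_prop).sub_const _)
  have hψi : ∀ j ∈ Icc 0 k, Integrable (fun U => pairR β α' c U k σ τ j (ψ j U)) m := fun j hj => by
    refine Integrable.of_bound (hψm j).aestronglyMeasurable 2 (hm.2.1.mono fun U hU => ?_)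
    refine (Real.norm_eq_abs _).trans_le (abs_pairR_le β α' c U σ τ j fun x x' => (abs_abs _).trans_le
      ((abs_sub _ _).trans ?_))
    have h1 := abs_topOv_le c U hU x x'
    have hjk := (mem_Icc.1 hj).2
    obtain ⟨u0, u1⟩ := P157.Rsb.path_mem hp hjk
    rw [abs_of_nonneg u0]
    linarith
  have hM2 : Integrable (fun U => gibR β α' c U k σ τ fun s =>
      |topSq c U s / N - pTop m k β α' c σ τ|) m := by
    refine (hM1.const_mul (1 / (N : ℝ))).congr (ae_of_all _ fun U => ?_)
    simp only [movE, rootE, groot, ← cnd_const_mul, gibR, hamU_eq]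
    refine congrArg (fun φ => cnd (stdG (Fld N)) (cubeLaw N)
      (gham (fdata β α' c U) (ampV σ τ)) φ 0 fun _ _ => 0) (funext₂ fun _ s => ?_)
    simp only [devM, hpB]
    rw [← abs_of_pos (one_div_pos.2 hN0), ← abs_mul]
    congr 1
    field_simp
  have key : ∀ᵐ U ∂m, P157.Rsb.mass k * ∑ j ∈ Icc 0 k, pairR β α' c U k σ τ j (ψ j U)
        + gibR β α' c U k σ τ (fun s => |topSq c U s / N - pTop m k β α' c σ τ|)
      ≤ 8 / √((k : ℝ) + 1) + 3 / 2 * √((k : ℝ) + 1) * ((k : ℝ) + 1) / (η * √N)
        + (2 / η * ∑ a : Fin k, movE β α c σ (devL m β α c σ a) ((y, h), U)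
            + (2 * (k : ℝ) + 1) * movE β α c σ (devM m β α c σ) ((y, h), U)) / N := by
    filter_upwards [hm.2.1] with U hU
    set D := fdata β α' c U
    set q : ℕ → ℝ := fun j => N * qh j
    set p₀ := meanB m β α c σ (y, h)
    have hbs : ∀ x, bsq D x = topSq c U x := fun x => sum_sq_inr c U x
    have htot := tot_le (cubeLaw N) D (ampV σ τ) (t := τ) (k := k) hη
      (fun l => by simp only [τ, lift_succ]; exact (hy l).1) (fun l i => rfl) hN0
      (fun x => (hbs x).trans_le (topSq_le c U hU x)) (q := q) (by simp only [q, hp.1, mul_zero])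
      (fun j hj => mul_le_mul_of_nonneg_left (hp.2.1 j hj) hN0.le)
      (mul_le_of_le_one_right hN0.le hp.2.2) p₀
    have e1 : ∀ j, pairR β α' c U k σ τ j (ψ j U)
        = 1 / (N : ℝ) * pairRoot (cubeLaw N) D (ampV σ τ) k j (fun x x' => |dot D x x' - q j|) := by
      intro j
      have : (ψ j U) = fun x x' => 1 / (N : ℝ) * |dot D x x' - q j| := funext₂ fun x x' => by
        simp only [ψ, q]
        rw [← abs_of_pos (one_div_pos.2 hN0), ← abs_mul]
        congr 1
        have hdot : dot D x x' = ∑ i, topMask c i * rotate U x i * rotate U x' i := by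
          refine sum_congr rfl fun i _ => ?_
          show topMask c i * rotate U x i * (topMask c i * rotate U x' i) = _
          linear_combination (rotate U x i * rotate U x' i) * topMask_sq c i
        rw [topOv, hdot]
        field_simp
      rw [this, pairR_mul, pairR, hamU_eq]
      rfl
    have e2 : ∀ a : Fin k, groot (k := k) (cubeLaw N) D (ampV σ τ) (devAt D τ p₀ q a)
        = movE β α c σ (devL m β α c σ a) ((y, h), U) := fun a => by
      rw [devAt, dif_pos a.2]
      refine congrArg (fun φ => cnd (stdG (Fld N)) (cubeLaw N) (gham D (ampV σ τ)) φ 0 fun _ _ => 0)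
        (funext₂ fun z s => ?_)
      have hmean : meanL m β α c σ a (y, h)
          = y a * (N - tail k q ((a : ℕ) + 1)) := by
        have e : ∀ V, movE β α c σ (obsL β α c a) ((y, h), V)
            = y a * (N - topTailR β α' c V k σ τ ((a : ℕ) + 1)) := fun V => by
          have := ampSlope_eq β α' c V σ τ a (y a)
          rw [show Function.update τ ((a : ℕ) + 1) (y a) = τ by
            simp only [τ, ← lift_succ y a, Function.update_eq_self]] at this
          rw [← this, ampSlope, show Function.update τ ((a : ℕ) + 1) (y a) = τ by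
            simp only [τ, ← lift_succ y a, Function.update_eq_self]]
          rfl
        have htail := qTop_tail β α' c hm σ τ (k := k) (j := (a : ℕ) + 1) (by omega)
        have hint : Integrable (fun V => topTailR β α' c V k σ τ ((a : ℕ) + 1)) m := by
          obtain ⟨M, _, hM⟩ := movE_bound β α c σ (movTame_obsL (β := β) (α := α) (c := c) R a)
          have h0 := ((int_mov hm (movE_meas β α c σ (movTame_obsL (β := β) (α := α) (c := c) R a).1)
            hM).2 (y, h) hy' hh).1
          refine ((integrable_const (N : ℝ)).sub (h0.div_const (y a))).congr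
            (ae_of_all _ fun V => ?_)
          have : y a ≠ 0 := ne_of_gt (hη.trans_le (hy a).1)
          simp only [Pi.sub_apply, e]
          field_simp
          ring
        simp only [meanL, e]
        rw [integral_const_mul, integral_sub (integrable_const _) hint, integral_const, probReal_univ,
          one_smul, htail]
        simp only [q, tail, ← mul_sum]
        ring
      simp only [devF, devL, hmean, τ, lift_succ]
      congr 1
      ring
    have e3 : groot (k := k) (cubeLaw N) D (ampV σ τ) (devB D p₀)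
        = movE β α c σ (devM m β α c σ) ((y, h), U) := by
      refine congrArg (fun φ => cnd (stdG (Fld N)) (cubeLaw N) (gham D (ampV σ τ)) φ 0 fun _ _ => 0)
        (funext₂ fun z s => ?_)
      simp only [devB, devM, hbs, p₀]
    have e4 : gibR β α' c U k σ τ (fun s => |topSq c U s / N - pTop m k β α' c σ τ|)
        = 1 / (N : ℝ) * movE β α c σ (devM m β α c σ) ((y, h), U) := by
      simp only [movE, rootE, groot, ← cnd_const_mul, gibR, hamU_eq]
      refine congrArg (fun φ => cnd (stdG (Fld N)) (cubeLaw N)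
        (gham (fdata β α' c U) (ampV σ τ)) φ 0 fun _ _ => 0) (funext₂ fun _ s => ?_)
      simp only [devM]
      rw [show meanB m β α c σ (y, h) = _ from hpB]
      rw [← abs_of_pos (one_div_pos.2 hN0), ← abs_mul]
      congr 1
      field_simp
    rw [sum_congr rfl fun j _ => e1 j, ← mul_sum, e4]
    rw [← Fin.sum_univ_eq_sum_range (fun j => groot (k := k) (cubeLaw N) D (ampV σ τ) (devAt D τ p₀ q j))
      k, sum_congr rfl fun a _ => e2 a, e3] at htot
    have h1 := mul_le_mul_of_nonneg_left htot (one_div_nonneg.2 hN0.le)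
    have hs : √(N : ℝ) * √(N : ℝ) = N := Real.mul_self_sqrt hN0.le
    have e5 : 1 / (N : ℝ) * (8 * N / √((k : ℝ) + 1)) = 8 / √((k : ℝ) + 1) := by field_simp
    have e6 : 1 / (N : ℝ) * (3 / 2 * √((k : ℝ) + 1) * (((k : ℝ) + 1) * √N / η))
        = 3 / 2 * √((k : ℝ) + 1) * ((k : ℝ) + 1) / (η * √N) := by
      field_simp
      linear_combination hs
    rw [mul_add, mul_add, mul_add, e5, e6] at h1
    rw [mul_left_comm (P157.Rsb.mass k)]
    have e7 : ∀ A B : ℝ, 1 / (N : ℝ) * (2 / η * A) + 1 / (N : ℝ) * (2 * k * B) + 1 / (N : ℝ) * B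
        = (2 / η * A + (2 * (k : ℝ) + 1) * B) / N := fun A B => by field_simp; ring
    rw [← e7]
    linarith
  have hsum : Integrable (fun U => P157.Rsb.mass k * ∑ j ∈ Icc 0 k, pairR β α' c U k σ τ j (ψ j U)) m :=
    (integrable_finsetSum _ hψi).const_mul _
  have hR1 : Integrable (fun U => (2 / η * ∑ a : Fin k, movE β α c σ (devL m β α c σ a) ((y, h), U)
      + (2 * (k : ℝ) + 1) * movE β α c σ (devM m β α c σ) ((y, h), U)) / N) m :=
    ((hLsum.const_mul _).add (hM1.const_mul _)).div_const _
  have h1 := integral_mono_ae (hsum.add hM2) ((integrable_const _).add hR1) key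
  rw [integral_add' hsum hM2, integral_const_mul, integral_finsetSum _ hψi,
    integral_add' (integrable_const _) hR1, integral_const, probReal_univ, one_smul, integral_div,
    integral_add (hLsum.const_mul _) (hM1.const_mul _), integral_const_mul, integral_const_mul,
    integral_finsetSum _ fun a _ => hL a] at h1
  refine le_trans (le_of_eq ?_) h1
  simp only [topErr, gibU_eq, pairU_eq, ψ, qh]

end Vale.Agent.P166.Rsb.Syn
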