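import Vale.Agent.P166.Rsb.Sync.Obs

/-!
# P166: the slopes and variances of the two one-parameter families, at a fixed rotation

Along the amplitude of one level and along the shift of the last atom the value at the root is
above its tangents, and the derivative of the slope dominates the thermal variance.
-/

open MeasureTheory ProbabilityTheory Real Finset
open Vale.Agent.P157 (cubeLaw)
open Vale.Agent.P157.Rsb (stdG cnd cndDer lev lev_nonneg mass_pos Size LinB Tame Family gaussSize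
  cnd_tame cnd_const_mul cnd_const cnd_add cnd_sub cnd_mono cnd_sq_le cnd_tower cndDer_self_ge
  hasDerivAt_cnd)

namespace Vale.Agent.P166.Rsb.Syn

section Generic

variable {Z X : Type} [MeasurableSpace Z] [MeasurableSpace X] {γ : Measure Z} [IsProbabilityMeasure γ]
  {μ : Measure X} [IsFiniteMeasure μ] [NeZero μ] {w : Size γ} {k : ℕ}

omit [IsFiniteMeasure μ] [NeZero μ] [IsProbabilityMeasure γ] in
theorem tame_num (r : ℝ) : Tame w fun (_ : Fin k → Z) (_ : X) => r :=
  Tame.of_bdd measurable_const (B := |r|) fun _ _ => le_rfl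

omit [IsFiniteMeasure μ] [NeZero μ] [IsProbabilityMeasure γ] in
theorem tame_absval {φ : (Fin k → Z) → X → ℝ} (h : Tame w φ) : Tame w fun z x => |φ z x| := by
  obtain ⟨hm, A, hA, hb⟩ := h
  exact ⟨continuous_abs.measurable.comp hm, A, hA, fun z x => (abs_abs _).trans_le (hb z x)⟩

/-- A deviation is bounded by the variance and the deviation of the mean. -/
theorem dev_le {H φ : (Fin k → Z) → X → ℝ} (hH : LinB w H) (hφ : Tame w φ) {θ : ℝ} (hθ : 0 < θ)
    (c : ℝ) (z : Fin k → Z) :
    cnd γ μ H (fun z x => |φ z x - c|) 0 z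
      ≤ θ / 2 + (cnd γ μ H (fun z x => φ z x ^ 2) 0 z - cnd γ μ H φ 0 z ^ 2) / (2 * θ)
        + |cnd γ μ H φ 0 z - c| := by
  set P := cnd γ μ H φ 0 z with hP
  have hsq : Tame w fun z x => φ z x ^ 2 := (hφ.mul hφ).congr fun z x => (sq _).symm
  have hA : Tame w fun z x => (1 / (2 * θ)) * φ z x ^ 2 := hsq.const_mul _
  have hB : Tame w fun z x => (P / θ) * φ z x := hφ.const_mul _
  have hC : Tame w fun (_ : Fin k → Z) (_ : X) => P ^ 2 / (2 * θ) + θ / 2 + |P - c| := tame_num _
  refine (cnd_mono (μ := μ) hH (tame_absval (hφ.sub (tame_num c))) ((hA.sub hB).add hC)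
    (fun z x => ?_) 0 z).trans (le_of_eq ?_)
  · have h1 : |φ z x - P| ≤ θ⁻¹ / 2 * (φ z x - P) ^ 2 + 1 / (2 * θ⁻¹) :=
      P157.Rsb.Lf.abs_le_half_sq (inv_pos.2 hθ) _
    have e : θ⁻¹ / 2 * (φ z x - P) ^ 2 + 1 / (2 * θ⁻¹)
        = 1 / (2 * θ) * φ z x ^ 2 - P / θ * φ z x + P ^ 2 / (2 * θ) + θ / 2 := by
      field_simp; ring
    linarith [abs_sub_le (φ z x) P c]
  · rw [cnd_add hH (hA.sub hB) hC, cnd_sub hH hA hB, cnd_const hH, cnd_const_mul, cnd_const_mul, ← hP]
    field_simp
    ring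

/-- A shift of the derivative of the Hamiltonian by a constant and a nonnegative derivative of the
observable keep the bound by the variance. -/
theorem cndDer_shift_ge {H φ ψ : (Fin k → Z) → X → ℝ} (hH : LinB w H) (hφ : Tame w φ)
    (hψ : Tame w ψ) (hψ0 : ∀ z x, 0 ≤ ψ z x) (c : ℝ) (z : Fin k → Z) :
    P157.Rsb.mass k * (cnd γ μ H (fun z x => φ z x ^ 2) 0 z - cnd γ μ H φ 0 z ^ 2)
      ≤ cndDer γ μ H φ (fun z x => φ z x - c) ψ 0 z := by
  have hS := cndDer_self_ge (μ := μ) hH hφ (Nat.zero_le k) z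
  have hlev : lev k (0 + 1) = P157.Rsb.mass k := by unfold lev P157.Rsb.mass; simp
  rw [hlev] at hS
  refine hS.trans ?_
  have t1 := hφ.mul hφ
  have hl : ∀ l z, cnd γ μ H (fun z x => φ z x - c) l z = cnd γ μ H φ l z - c := fun l z => by
    rw [cnd_sub hH hφ (tame_num c), cnd_const hH]
  have tl : ∀ l, Tame w fun z (_ : X) => cnd γ μ H φ l z * cnd γ μ H φ l z :=
    fun l => (cnd_tame hH hφ l).mul (cnd_tame hH hφ l)
  have he : ∀ l, cnd γ μ H (fun z _ => cnd γ μ H φ l z * (cnd γ μ H φ l z - c)) 0 z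
      = cnd γ μ H (fun z _ => cnd γ μ H φ l z * cnd γ μ H φ l z) 0 z - c * cnd γ μ H φ 0 z := fun l => by
    rw [show (fun z (_ : X) => cnd γ μ H φ l z * (cnd γ μ H φ l z - c))
      = fun z _ => cnd γ μ H φ l z * cnd γ μ H φ l z - c * cnd γ μ H φ l z from
        funext₂ fun z _ => by ring,
      cnd_sub hH (tl l) ((cnd_tame hH hφ l).const_mul _), cnd_const_mul, cnd_tower hH (Nat.zero_le l)]
  have e0 : cnd γ μ H (fun z x => ψ z x + φ z x * (φ z x - c)) 0 z
      = cnd γ μ H ψ 0 z + (cnd γ μ H (fun z x => φ z x * φ z x) 0 z - c * cnd γ μ H φ 0 z) := by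
    rw [show (fun z x => ψ z x + φ z x * (φ z x - c))
      = fun z x => ψ z x + (φ z x * φ z x - c * φ z x) from funext₂ fun z x => by ring,
      cnd_add hH hψ (t1.sub (hφ.const_mul _)), cnd_sub hH t1 (hφ.const_mul _), cnd_const_mul]
  have hψ' : 0 ≤ cnd γ μ H ψ 0 z := P157.Rsb.cnd_nonneg hψ0 _ _
  have hk : P157.Rsb.mass k * ((k + 1 - (0 + 1) : ℕ) : ℝ) = 1 - P157.Rsb.mass k := by
    rw [Nat.cast_sub (by omega)]; unfold P157.Rsb.mass; push_cast; field_simp
  simp only [cndDer, hl, he, e0, zero_add, hlev, sum_sub_distrib, sum_const, Nat.card_Icc, nsmul_eq_mul]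
  simp only [zero_add] at hk
  linear_combination hψ' - (c * cnd γ μ H φ 0 z) * hk

omit [IsFiniteMeasure μ] [NeZero μ] [IsProbabilityMeasure γ] in
/-- A family whose observable moves affinely. -/
theorem family_affine {H dH : ℝ → (Fin k → Z) → X → ℝ} {φ₀ ψ : (Fin k → Z) → X → ℝ} {s₀ r : ℝ}
    (F₁ : Family w H (fun _ => φ₀) dH (fun _ _ _ => 0) s₀ r)
    (F₂ : Family w H (fun _ => ψ) dH (fun _ _ _ => 0) s₀ r) :
    Family w H (fun t z x => φ₀ z x + t * ψ z x) dH (fun _ => ψ) s₀ r := by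
  obtain ⟨A, hA, hb⟩ := F₁.bound
  obtain ⟨A', hA', hb'⟩ := F₂.bound
  set S := |s₀| + r
  have hS : 0 ≤ S := by have := F₁.pos; positivity
  set B := A + S * A' + A'
  have hB : 0 ≤ B := by positivity
  have hmono : ∀ (C : ℝ) (z : Fin k → Z), C ≤ B → exp (C * w.tot z) ≤ exp (B * w.tot z) := fun C z hC =>
    exp_le_exp.2 (mul_le_mul_of_nonneg_right hC (w.tot_nonneg z))
  have hSA : 0 ≤ S * A' := mul_nonneg hS hA'
  refine ⟨F₁.pos, F₁.measH, F₁.measdH, fun t => (F₁.measφ t).add ((F₂.measφ t).const_mul t),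
    fun _ => F₂.measφ 0, ⟨B, hB, fun t ht z x => ?_⟩, F₁.derivH, fun t _ z x => ?_⟩
  · obtain ⟨h1, h2, h3, -⟩ := hb t ht z x
    obtain ⟨-, -, h4, -⟩ := hb' t ht z x
    have htS : |t| ≤ S := by linarith [abs_sub_abs_le_abs_sub t s₀]
    have e1 := hmono A z (by linarith)
    have e2 := hmono A' z (by linarith)
    have he : 0 ≤ exp (B * w.tot z) := (exp_pos _).le
    refine ⟨h1.trans (mul_le_mul_of_nonneg_right (by linarith) (by linarith [w.tot_nonneg z])),
      h2.trans (mul_le_mul (by linarith) e1 (exp_pos _).le hB), ?_,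
      h4.trans (mul_le_mul (by linarith) e2 (exp_pos _).le hB)⟩
    refine (abs_add_le _ _).trans ?_
    rw [abs_mul, show B * exp (B * w.tot z)
      = A * exp (B * w.tot z) + S * (A' * exp (B * w.tot z)) + A' * exp (B * w.tot z) by ring]
    have := mul_le_mul htS (h4.trans (mul_le_mul_of_nonneg_left e2 hA')) (abs_nonneg _) hS
    linarith [h3.trans (mul_le_mul_of_nonneg_left e1 hA), mul_nonneg hA' he]
  · simpa using ((hasDerivAt_id t).mul_const (ψ z x)).const_add (φ₀ z x)

/-- The integral of a variance below the derivative of a bounded slope. -/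
theorem int_var_le {P W : ℝ → ℝ} {lo hi M q : ℝ} (hlh : lo ≤ hi) (hq : 0 < q)
    (hW : ∀ s, 0 ≤ W s) (hP : ∀ s, ∃ D, HasDerivAt P D s ∧ q * W s ≤ D)
    (hlo : |P lo| ≤ M) (hhi : |P hi| ≤ M) :
    ∫ s in Set.Icc lo hi, W s ≤ 2 * M / q := by
  choose D hD hDv using hP
  have hD0 : ∀ s, 0 ≤ D s := fun s => (mul_nonneg hq.le (hW s)).trans (hDv s)
  have hc : ContinuousOn P (Set.Icc lo hi) := fun s _ => (hD s).continuousAt.continuousWithinAt
  have hi1 : IntegrableOn D (Set.Ioc lo hi) :=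
    intervalIntegral.integrableOn_deriv_of_nonneg hc (fun s _ => hD s) fun s _ => hD0 s
  have hint : ∫ s in lo..hi, D s = P hi - P lo :=
    intervalIntegral.integral_eq_sub_of_hasDerivAt (fun s _ => hD s)
      ((intervalIntegrable_iff_integrableOn_Ioc_of_le hlh).2 hi1)
  rw [intervalIntegral.integral_of_le hlh] at hint
  rw [integral_Icc_eq_integral_Ioc]
  have h1 : ∫ s in Set.Ioc lo hi, W s ≤ ∫ s in Set.Ioc lo hi, D s / q :=
    integral_mono_of_nonneg (ae_of_all _ hW) (hi1.div_const _)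
      (ae_of_all _ fun s => by rw [le_div_iff₀ hq, mul_comm]; exact hDv s)
  rw [integral_div, hint] at h1
  refine h1.trans (div_le_div_of_nonneg_right ?_ hq.le)
  linarith [(abs_le.1 hhi).2, (abs_le.1 hlo).1]

end Generic

variable {d N k : ℕ} (β : ℝ) (α : Fin (d + 1) → ℝ) (c : Fin N → Fin (d + 1))
  (U : Fin N → Fin N → ℝ) (σ τ : ℕ → ℝ)

theorem bsq_eq (s : Fin N → Bool) : bsq (fdata β α c U) s = topSq c U s := sum_sq_inr c U s

theorem tame_lineObs (a : Fin k) (t : ℝ) :
    Tame (gaussSize (Fld N)) (lineObs β α c U a t) :=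
  (tame_fobs _ a).add (Tame.const_mul (φ := fun (_ : Fin k → Fld N → ℝ) s => (N : ℝ) - topSq c U s)
    ((tame_num (N : ℝ)).sub ((tame_bsq (fdata β α c U)).congr fun _ s => bsq_eq β α c U s)) t)

variable (a : Fin k) (t : ℝ)

/-- The slope by integration by parts. -/
theorem ampSlope_eq : ampSlope β α c U σ τ a t
    = t * (N - topTailR β α c U k σ (Function.update τ ((a : ℕ) + 1) t) ((a : ℕ) + 1)) := by
  set τ' := Function.update τ ((a : ℕ) + 1) t
  set D := fdata β α c U
  have hH := gham_linB (k := k) D (ampV σ τ')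
  have hb : Tame (gaussSize (Fld N)) fun (_ : Fin k → Fld N → ℝ) s => bsq D s := tame_bsq D
  have hB : lineObs β α c U a t
      = fun (z : Fin k → Fld N → ℝ) s => fobs D a z s + t * ((N : ℝ) - bsq D s) := funext₂ fun z s => by
    rw [lineObs, bsq_eq]
  unfold ampSlope rootE groot
  rw [hB, cnd_add hH (tame_fobs D a) (Tame.const_mul ((tame_num (N : ℝ)).sub hb) t), cnd_const_mul,
    cnd_sub hH (tame_num (N : ℝ)) hb, cnd_const hH,
    cnd_fobs (cubeLaw N) D (ampV σ τ') a (c := t) (fun i => Function.update_self _ _ _) (Nat.zero_le _)]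
  have hT : topTailR β α c U k σ τ' ((a : ℕ) + 1) = P157.Rsb.mass k * ∑ l ∈ Icc ((a : ℕ) + 1) k,
      cnd (k := k) (stdG (Fld N)) (cubeLaw N) (gham D (ampV σ τ'))
        (fun z _ => msq (cubeLaw N) D (ampV σ τ') l z) 0 fun _ _ => 0 := by
    rw [topTailR_eq]
    simp only [gtail, gq, groot, ← mul_sum]
    rw [sum_comm]
    congr 1
    refine sum_congr rfl fun l _ => ?_
    simp only [msq, bmv]
    rw [P157.Rsb.cnd_finsum hH _ fun i _ => tame_gmv_sq (cubeLaw N) D _ l _]
  rw [hT]
  ring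

variable (hU : IsOrth U)
include hU

theorem topTailR_le (j : ℕ) : topTailR β α c U k σ τ j ≤ N := by
  rcases Nat.eq_zero_or_pos N with rfl | hN
  · simp [topTailR_eq]
  have hN' : (0 : ℝ) < N := by exact_mod_cast hN
  refine (mul_le_mul_of_nonneg_left (sum_le_card_nsmul _ _ (N : ℝ) fun l _ => ?_) mass_pos.le).trans ?_
  · refine (le_abs_self _).trans (abs_pairR_le β α c U σ τ l fun x y => ?_)
    have h := abs_topOv_le c U hU x y
    rwa [topOv, abs_div, Nat.abs_cast, div_le_one hN'] at h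
  · rw [nsmul_eq_mul, Nat.card_Icc, ← mul_assoc]
    refine mul_le_of_le_one_left hN'.le ?_
    rw [P157.Rsb.mass, one_div_mul_eq_div, div_le_one (by positivity)]
    exact_mod_cast Nat.sub_le _ _

theorem abs_ampSlope_le : |ampSlope β α c U σ τ a t| ≤ |t| * N := by
  rw [ampSlope_eq, abs_mul]
  refine mul_le_mul_of_nonneg_left ?_ (abs_nonneg t)
  have h0 := topTailR_nonneg β α c U (k := k) σ (Function.update τ ((a : ℕ) + 1) t) ((a : ℕ) + 1)
  have h1 := topTailR_le (k := k) β α c U σ (Function.update τ ((a : ℕ) + 1) t) hU ((a : ℕ) + 1)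
  rw [abs_le]
  constructor <;> linarith [show (0 : ℝ) ≤ N from Nat.cast_nonneg N]

/-- The convexified value is above its tangents. -/
theorem ampVal_tangent (s : ℝ) :
    ampVal β α c U σ τ a s + (t - s) * ampSlope β α c U σ τ a s ≤ ampVal β α c U σ τ a t := by
  have h := rootU_support (k := k) β α c U hU β α σ (Function.update τ ((a : ℕ) + 1) s) σ
    (Function.update τ ((a : ℕ) + 1) t)
  simp only [sub_self, zero_mul, ne_eq, OfNat.ofNat_ne_zero, not_false_eq_true, zero_pow, zero_div,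
    zero_add] at h
  rw [show gibR β α c U k σ (Function.update τ ((a : ℕ) + 1) s) (fun _ => (0 : ℝ)) = 0 from
    cnd_const (hamU_linB β α c U σ _) 0 0 _, add_zero, sum_eq_single a (fun l _ hl => by
      rw [Function.update_of_ne (by simpa [Fin.val_inj] using hl),
        Function.update_of_ne (by simpa [Fin.val_inj] using hl)]
      simp) (fun hn => absurd (mem_univ a) hn), Function.update_self, Function.update_self] at h
  rw [ampVal, ampVal, ampSlope_eq]
  linear_combination h

theorem shift_tangent (h h' : ℝ) :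
    rootU k β (raise α h) c σ τ U + (h' - h) * shiftSlope k β α c U σ τ h
      ≤ rootU k β (raise α h') c σ τ U := by
  have h1 := rootU_support (k := k) β (raise α h) c U hU β (raise α h') σ τ σ τ
  simp only [sub_self, zero_mul, ne_eq, OfNat.ofNat_ne_zero, not_false_eq_true, zero_pow, zero_div,
    sum_const_zero, add_zero] at h1
  refine le_trans (le_of_eq ?_) h1
  rw [shiftSlope, ← gibR_mul]
  congr 2
  funext s
  rw [enV_raise, enV_raise]
  ring

theorem abs_shiftSlope_le (h : ℝ) : |shiftSlope k β α c U σ τ h| ≤ |β| / 2 * N := by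
  refine abs_gibR_le β _ c U σ τ fun s => ?_
  rw [abs_mul, abs_div, abs_two, abs_of_nonneg (topSq_nonneg c U s)]
  exact mul_le_mul_of_nonneg_left (topSq_le c U hU s) (by positivity)

omit hU

theorem ampVar_nonneg : 0 ≤ ampVar β α c U σ τ a t :=
  sub_nonneg.2 (cnd_sq_le (gham_linB _ _) (tame_lineObs β α c U a t) 0 _)

theorem tame_shiftObs :
    Tame (gaussSize (Fld N)) fun (_ : Fin k → Fld N → ℝ) s => β / 2 * topSq c U s :=
  ((tame_bsq (fdata β (0 : Fin (d + 1) → ℝ) c U)).congr fun _ s => bsq_eq β _ c U s).const_mul _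

theorem shiftVar_nonneg (h : ℝ) : 0 ≤ shiftVar k β α c U σ τ h :=
  sub_nonneg.2 (cnd_sq_le (hamU_linB β _ c U σ τ) (tame_shiftObs β c U) 0 _)

/-- The derivative of the slope in an amplitude dominates the variance. -/
theorem ampSlope_deriv (hU : IsOrth U) :
    ∃ D, HasDerivAt (fun u => ampSlope β α c U σ τ a u) D t ∧
      P157.Rsb.mass k * ampVar β α c U σ τ a t ≤ D := by
  set D₀ := fdata β α c U
  set s₀ : ℕ → Fld N → ℝ := ampV σ (Function.update τ ((a : ℕ) + 1) 0)
  set e : ℕ → Fld N → ℝ := ampV (fun _ => 0) (Function.update (fun _ => 0) ((a : ℕ) + 1) 1)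
  have hg : BMeas fun _ : Fin N → Bool => (0 : ℝ) := ⟨measurable_const, 0, fun _ => by simp⟩
  have hsh : ∀ u, D₀.shift (fun _ => 0) hg u = D₀ := fun u => by simp [FData.shift]
  have hline : ∀ u, lineAmp s₀ e u = ampV σ (Function.update τ ((a : ℕ) + 1) u) := fun u => by
    funext l i
    cases i with
    | inl i => simp [lineAmp, s₀, e, ampV]
    | inr i =>
      simp only [lineAmp, s₀, e, ampV, Sum.elim_inr, Function.update_apply]
      split_ifs <;> simp
  have tψ : Tame (gaussSize (Fld N)) fun (_ : Fin k → Fld N → ℝ) s => (N : ℝ) - topSq c U s :=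
    (tame_num (N : ℝ)).sub ((tame_bsq D₀).congr fun _ s => bsq_eq β α c U s)
  have hF := family_affine (gfamily D₀ s₀ e hg (tame_fobs D₀ a) t) (gfamily D₀ s₀ e hg tψ t)
  have hd := hasDerivAt_cnd (μ := cubeLaw N) hF (Nat.zero_le k) fun _ _ => 0
  simp only [hsh, hline] at hd
  refine ⟨_, hd, ?_⟩
  have hdH : gDer (D₀) (ampV σ (Function.update τ ((a : ℕ) + 1) t)) e (fun _ => 0)
      = fun z s => lineObs β α c U a t z s - t * N := by
    funext z s
    have hb : bsq D₀ s = topSq c U s := bsq_eq β α c U s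
    rw [lineObs, ← hb]
    simp only [gDer, e, ampV, Fintype.sum_sum_type, Sum.elim_inl, Sum.elim_inr, zero_mul,
      sum_const_zero, zero_add, add_zero]
    rw [sum_eq_single a (fun l _ hl => by
      rw [Function.update_of_ne (by simpa [Fin.val_inj] using hl)]
      simp) (fun hn => absurd (mem_univ a) hn), Function.update_self]
    simp only [Function.update_self, one_mul, sum_sub_distrib, fobs, bsq, ← mul_sum, D₀]
    ring
  rw [hdH]
  exact cndDer_shift_ge (gham_linB _ _) (tame_lineObs β α c U a t) tψ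
    (fun _ s => sub_nonneg.2 (topSq_le c U hU s)) (t * N) _

theorem int_ampVar_le (hU : IsOrth U) {lo hi R : ℝ} (hlh : lo ≤ hi) (hlo : |lo| ≤ R)
    (hhi : |hi| ≤ R) :
    ∫ s in Set.Icc lo hi, ampVar β α c U σ τ a s ≤ 2 * R * N / P157.Rsb.mass k := by
  rw [show 2 * R * (N : ℝ) = 2 * (R * N) by ring]
  exact int_var_le hlh mass_pos (fun s => ampVar_nonneg β α c U σ τ a s)
    (fun s => ampSlope_deriv β α c U σ τ a s hU)
    ((abs_ampSlope_le β α c U σ τ a lo hU).trans (mul_le_mul_of_nonneg_right hlo (Nat.cast_nonneg N)))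
    ((abs_ampSlope_le β α c U σ τ a hi hU).trans (mul_le_mul_of_nonneg_right hhi (Nat.cast_nonneg N)))

/-- The derivative of the slope in the shift dominates the variance. -/
theorem shiftSlope_deriv (h : ℝ) :
    ∃ D, HasDerivAt (fun u => shiftSlope k β α c U σ τ u) D h ∧
      P157.Rsb.mass k * shiftVar k β α c U σ τ h ≤ D := by
  set D₀ := fdata β α c U
  set g : (Fin N → Bool) → ℝ := fun s => β / 2 * topSq c U s
  have hg : BMeas g := ⟨measurable_of_countable _, ∑ s, |g s|,
    fun s => single_le_sum (f := fun s => |g s|) (fun _ _ => abs_nonneg _) (mem_univ s)⟩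
  have hsh : ∀ u, D₀.shift g hg u = fdata β (raise α u) c U := fun u => by
    simp only [FData.shift, D₀, fdata, g, enV_raise]
    congr 1
    funext s
    ring
  have hline : ∀ u, lineAmp (ampV (N := N) σ τ) (fun _ _ => 0) u = ampV σ τ := fun u => by
    funext l i; simp [lineAmp]
  have tg : Tame (gaussSize (Fld N)) fun (_ : Fin k → Fld N → ℝ) s => g s := tame_bmeas hg
  have hd := hasDerivAt_cnd (μ := cubeLaw N) (gfamily D₀ (ampV σ τ) (fun _ _ => 0) hg tg h)
    (Nat.zero_le k) fun _ _ => 0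
  simp only [hsh, hline] at hd
  have hG : gDer (fdata β (raise α h) c U) (ampV σ τ) (fun _ _ => 0) g
      = fun (_ : Fin k → Fld N → ℝ) s => g s := by funext z s; simp [gDer]
  simp only [hG] at hd
  refine ⟨_, hd.congr_of_eventuallyEq (Filter.Eventually.of_forall fun u => by
    simp only [shiftSlope, gibR, hamU_eq, g]), ?_⟩
  have hS := cndDer_self_ge (μ := cubeLaw N) (gham_linB (fdata β (raise α h) c U) (ampV σ τ)) tg
    (Nat.zero_le k) fun _ _ => 0
  rw [show lev k (0 + 1) = P157.Rsb.mass k by unfold lev P157.Rsb.mass; simp] at hS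
  refine le_trans (le_of_eq ?_) hS
  simp only [shiftVar, shiftSlope, gibR, hamU_eq, g]

theorem int_shiftVar_le (hU : IsOrth U) {lo hi : ℝ} (hlh : lo ≤ hi) :
    ∫ s in Set.Icc lo hi, shiftVar k β α c U σ τ s ≤ |β| * N / P157.Rsb.mass k := by
  rw [show |β| * (N : ℝ) = 2 * (|β| / 2 * N) by ring]
  exact int_var_le hlh mass_pos (fun s => shiftVar_nonneg β α c U σ τ s)
    (fun s => shiftSlope_deriv β α c U σ τ s) (abs_shiftSlope_le β α c U σ τ hU lo)
    (abs_shiftSlope_le β α c U σ τ hU hi)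

/-- The deviation of the energy of one field. -/
theorem amp_dev {θ : ℝ} (hθ : 0 < θ) (c₀ p₀ : ℝ) :
    rootE β α c U σ (Function.update τ ((a : ℕ) + 1) t)
        (fun z s => |fobs (fdata β α c U) a z s - c₀|)
      ≤ θ / 2 + ampVar β α c U σ τ a t / (2 * θ) + |ampSlope β α c U σ τ a t - (c₀ + t * (N - p₀))|
        + |t| * gibR β α c U k σ (Function.update τ ((a : ℕ) + 1) t) (fun s => |topSq c U s - p₀|) := by
  set τ' := Function.update τ ((a : ℕ) + 1) t
  set D := fdata β α c U
  have hH := gham_linB (k := k) D (ampV σ τ')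
  set c₁ := c₀ + t * ((N : ℝ) - p₀)
  have h1 : Tame (gaussSize (Fld N)) fun z s => |lineObs (k := k) β α c U a t z s - c₁| :=
    tame_absval ((tame_lineObs β α c U a t).sub (tame_num c₁))
  have h2 : Tame (gaussSize (Fld N)) fun (_ : Fin k → Fld N → ℝ) s => |t| * |topSq c U s - p₀| :=
    (tame_absval (((tame_bsq D).congr fun _ s => bsq_eq β α c U s).sub (tame_num p₀))).const_mul _
  have hdev := dev_le (μ := cubeLaw N) hH (tame_lineObs β α c U a t) hθ c₁ fun _ _ => 0
  refine (cnd_mono hH (tame_absval ((tame_fobs D a).sub (tame_num c₀))) (h1.add h2) (fun z s => ?_) 0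
    _).trans ?_
  · rw [← abs_mul, show fobs D a z s - c₀ = (lineObs β α c U a t z s - c₁) + t * (topSq c U s - p₀) by
      simp only [lineObs, c₁, D]; ring]
    exact abs_add_le _ _
  · rw [cnd_add hH h1 h2, cnd_const_mul]
    simp only [gibR, hamU_eq]
    exact add_le_add hdev le_rfl

/-- The deviation of the P157.Rsb.mass inside the last block. -/
theorem shift_dev (h : ℝ) {θ : ℝ} (hθ : 0 < θ) (p₀ : ℝ) :
    |β| / 2 * gibR β (raise α h) c U k σ τ (fun s => |topSq c U s - p₀|)
      ≤ θ / 2 + shiftVar k β α c U σ τ h / (2 * θ) + |shiftSlope k β α c U σ τ h - β / 2 * p₀| := by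
  refine le_trans (le_of_eq ?_) (dev_le (μ := cubeLaw N) (hamU_linB β (raise α h) c U σ τ)
    (tame_shiftObs β c U) hθ (β / 2 * p₀) fun _ _ => 0)
  rw [← gibR_mul]
  refine congrArg (gibR β (raise α h) c U k σ τ) (funext fun s => ?_)
  rw [← mul_sub, abs_mul, abs_div, abs_two]

end Vale.Agent.P166.Rsb.Syn
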